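import Vale.Agent.P154.I9.Charts

set_option maxRecDepth 100000

namespace Vale.Agent.P154.I9

open Cert InT OutT

/-- Certificate tree. -/
def tr00_r1010 : OutT :=
(B (A (B (A (B (O (c l (c (d l l) (d (c k k) (c (d l l) (d (c k k) (c l (d l l)))))))) (O (c l (c (d l l) (d (c k k) (c (d l l) (d (c k k) (c l (d l l))))))))) (B (A (O (c l (c l (d (c k k) (c l (d (c k k) l)))))) (O (c l (c (d l l) (d (c k k) (c l (d (c k k) l))))))) (A (O (c l (c l (d (c k k) (c l (d (c k k) l)))))) (O (c l (c l (d (c k k) (c l (d (c k k) l))))))))) (A (B (O (c l (c (d l l) (d (c k k) (c (d l l) (d (c k k) (c l (d l l)))))))) (O (c l (c l (d (c k k) (c (d l l) (d (c k k) (c l (d l l))))))))) (B (A (O (c l (c l (d (c k k) (c l (d (c k k) l)))))) (O (c l (c l (d (c k k) (c l (d (c k k) l))))))) (A (O (c l (c l (d (c k k) (c l (d l l)))))) (O (c l (c l (d (c k k) (c l (d (c k k) l)))))))))) (B (A (B (A (O (c l (c (d l l) (d (c k k) (c (d l l) (d (c k k) (c l (d l l)))))))) (O (c l (c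 (d l l) (d (c k k) (c (d l l) (d (c k k) (c l (d (c k k) l))))))))) (A (O (c l (c (d l l) (d (c k k) (c l (d (c k k) (c l l))))))) (O (c l (c (d l l) (d (c k k) (c (d l l) (d (c k k) (c l (d (c k k) l)))))))))) (B (A (B (O (c l (c (d l l) (d (c k k) (c (d (c l l) l) (d (c k k) (c l (d (c k k) l)))))))) (O (c l (c (d l l) (d (c k k) (c (d l l) (d (c k k) (c l (d (c k k) l))))))))) (B (O (c l (c (d l (c l l)) (d (c k k) (c (d (c l (d k l)) l) (d (c k k) (c (d (c l k) l) (d (c k k) (c l (d (c k k) l)))))))))) (O (c l (c (d l l) (d (c k k) (c (d (c l (d k l)) l) (d (c k k) (c (d l l) (d (c k k) (c l (d l l)))))))))))) (A (O (c l (c (d l l) (d (c k k) (c (d (c l l) l) (d (c k k) (c (d l l) (d (c k k) (c l l))))))))) (B (O (c l (c (d l l) (d (c k k) (c (d (c l l) l) (d (c k k) (c (d l l) (d (c k k) (c l l))))))))) (O (c l (c (d l l) (d (c k k) (c (d l l) (d (c k k) (c l (d (c k k) l)))))))))))) (A (B (A (O (c l (c l (d (c k k) (c l (d (c k k) (c l l))))))) (O (c l (c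 l (d (c k k) (c (d l l) (d (c k k) (c l (d l l))))))))) (A (O (c l (c l (d (c k k) (c l (d (c k k) l)))))) (O (c l (c l (d (c k k) (c l (d (c k k) (c l (d l l)))))))))) (B (A (O (c l (c (d l l) (d (c k k) (c (d l l) (d (c k k) (c l (d (c k k) l)))))))) (B (O (c l (c (d l l) (d (c k k) (c (d l l) (d (c k k) (c l (d (c k k) l)))))))) (O (c l (c (d l l) (d (c k k) (c (d l l) (d (c k k) (c l (d (c k k) l)))))))))) (A (O (c l (c l (d (c k k) (c (d l l) (d (c k k) (c l (d (c k k) l)))))))) (B (O (c l (c l (d (c k k) (c (d l l) (d (c k k) (c l (d (c k k) l)))))))) (O (c l (c l (d (c k k) (c l (d (c k k) (c l (d (c k k) l)))))))))))))) (A (B (A (B (O (c l (c l (d (c k k) (c l (d (c k k) (c l (d l l)))))))) (O (c l (c l (d (c k k) (c l (d (c k k) (c l (d l l))))))))) (B (A (O (c l (c l (d (c k k) (c l (d l l)))))) (O (c l (c l (d (c k k) (c l (d (c k k) l))))))) (A (O (c l (c l (d (c k k) (c l (d l l)))))) (O (c l (c l (d (c k k) (c l (d l l))))))))) (A (B (O (c l (c l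 (d (c k k) (c l (d (c k k) (c l (d l l)))))))) (O (c l (c l (d (c k k) (c l (d (c k k) (c l (d l l))))))))) (B (A (O (c l (c l (d (c k k) (c l (d l l)))))) (O (c l (c l (d (c k k) (c l (d l l))))))) (A (O (c l (c l (d (c k k) (c l (d l l)))))) (O (c l (c l (d (c k k) (c l (d l l)))))))))) (B (A (B (A (O (c l (c l (d (c k k) (c l (d (c k k) l)))))) (O (c l (c l (d (c k k) (c l (d (c k k) (c l l)))))))) (A (O (c l (c l (d (c k k) (c l (d (c k k) l)))))) (O (c l (c l (d (c k k) (c l (d (c k k) (c l l))))))))) (B (A (O (c l (c l (d (c k k) (c l (d (c k k) (c l (d (c k k) l)))))))) (B (O (c l (c l (d (c k k) (c l (d (c k k) (c l (d (c k k) l)))))))) (O (c l (c l (d (c k k) (c l (d (c k k) (c l (d l l)))))))))) (A (O (c l (c l (d (c k k) (c l (d (c k k) (c l (d l l)))))))) (O (c l (c l (d (c k k) (c l (d (c k k) (c l (d (c k k) (c l (d l l))))))))))))) (A (B (A (O (c l (c l (d (c k k) (c l (d l l)))))) (O (c l (c l (d (c k k) (c l (d (c k k) l))))))) (A (O (c l (c l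 (d (c k k) (c l (d l l)))))) (O (c l (c l (d (c k k) (c l (d (c k k) l)))))))) (B (A (O (c l (c l (d (c k k) (c l (d (c k k) (c l (d l l)))))))) (O (c l (c l (d (c k k) (c l (d (c k k) (c l (d (c k k) l))))))))) (A (O (c l (c l (d (c k k) (c l (d (c k k) (c l (d l l)))))))) (O (c l (c l (d (c k k) (c l (d (c k k) (c l (d (c k k) l))))))))))))))

theorem s00_r1010 : Sound P00 32768 4096 32768 16384 :=
  chkOut_sound P00 tr00_r1010 32768 4096 32768 16384 (by decide +kernel)

end Vale.Agent.P154.I9
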