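import Vale.Agent.P154.I9.Charts

set_option maxRecDepth 100000

namespace Vale.Agent.P154.I9

open Cert InT OutT

/-- Certificate tree. -/
def tr00_r10110 : OutT :=
(A (B (A (B (A (B (A (O (c l (c (d l l) (d (c k k) (c (d (c l l) l) (d (c k k) (c l (d (c k k) l)))))))) (O (c (c l l) (c (d l l) (d (c k k) (c (d (c l (d k l)) l) (d (c k k) (c l (d (c k k) l))))))))) (A (O (c l (c (d l l) (d (c k k) (c (d l l) (d (c k k) (c l (d (c k k) l)))))))) (O (c l (c (d l l) (d (c k k) (c (d (c l l) l) (d (c k k) (c l (d (c k k) l)))))))))) (B (A (O (c (c l l) (c (d (c l l) (c l l)) (d (c k k) (c (d (c l (d k l)) l) (d (c k k) (c (d l l) (d (c k k) l)))))))) (O (c (c l l) (c (d (c l (d l l)) (c l l)) (d (c k k) (c (d (c l (d k (c k k))) (c l l)) (d (c k k) (c (d (c l k) l) (d (c k k) (c l (d (c k k) l))))))))))) (A (O (c l (c (d l l) (d (c k k) (c (d (c l (d k l)) l) (d (c k k) (c (d l l) (d (c k k) l)))))))) (O (c (c l l) (c (d (c l l) (c l l)) (d (c k k)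 (c (d (c l (d k l)) l) (d (c k k) (c (d (c l k) l) (d (c k k) (c l l)))))))))))) (A (B (A (O (c l (c (d l l) (d (c k k) (c (d l l) (d (c k k) (c l (d l l)))))))) (O (c l (c (d l l) (d (c k k) (c (d l l) (d (c k k) (c l (d (c k k) l))))))))) (A (O (c l (c (d l l) (d (c k k) (c (d l l) (d (c k k) (c l (d l l)))))))) (O (c l (c (d l l) (d (c k k) (c (d l l) (d (c k k) (c l (d l l)))))))))) (B (A (O (c l (c (d l l) (d (c k k) (c (d (c l l) l) (d (c k k) (c l (d (c k k) l)))))))) (O (c l (c (d l l) (d (c k k) (c (d (c l (d k l)) l) (d (c k k) (c (d l l) (d (c k k) l))))))))) (A (O (c l (c (d l l) (d (c k k) (c (d l l) (d (c k k) (c l (d (c k k) l)))))))) (O (c l (c (d l l) (d (c k k) (c (d (c l l) l) (d (c k k) (c l (d (c k k) l)))))))))))) (B (A (B (A (O (c (c l (c l l)) (c (d (c l (d (c k k) (c l l))) (c l (d l l))) (d (c k k) (c (d (c (d k l) (d k (c k k))) (c l (d l l))) (d (c k k) (c (d (c (d k l) k) l) (d (c k k) (c (d l l) (d (c k k) l))))))))))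 s) (A (O (c (c l l) (c (d (c l (d l l)) (c l l)) (d (c k k) (c (d (c l (d k (c k k))) (c l l)) (d (c k k) (c (d (c l k) l) (d (c k k) (c l (d (c k k) l)))))))))) (B (O (c (c l l) (c (d (c l (d l l)) (c l l)) (d (c k k) (c (d (c (d k l) (d k (c k k))) (c l l)) (d (c k k) (c (d (c l k) l) (d (c k k) (c l (d (c k k) l)))))))))) (O (c (c l l) (c (d (c l (d l l)) (c l l)) (d (c k k) (c (d (c l (d k (c k k))) l) (d (c k k) (c (d (c l k) l) (d (c k k) (c l (d (c k k) l))))))))))))) (B s (A s s))) (A (B (A (O (c (c l l) (c (d (c l l) (c l l)) (d (c k k) (c (d (c l (d k l)) l) (d (c k k) (c (d (c l k) l) (d (c k k) (c l (d (c k k) l)))))))))) (O (c (c l l) (c (d (c l (d l l)) (c l l)) (d (c k k) (c (d (c l (d k (c k k))) (c l l)) (d (c k k) (c (d (c l k) l) (d (c k k) (c l (d (c k k) l))))))))))) (A (O (c l (c (d l l) (d (c k k) (c (d (c l (d k l)) l) (d (c k k) (c (d l l) (d (c k k) l)))))))) (O (c l (c (d l l) (d (c k k) (c (d (c l (d k l)) l) (d (c k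 k) (c (d (c l k) l) (d (c k k) (c l (d (c k k) l)))))))))))) (B (A (B (O (c (c l l) (c (d (c l (d l l)) (c l l)) (d (c k k) (c (d (c l (d k (c k k))) (c l l)) (d (c k k) (c (d (c l k) l) (d (c k k) (c l (d (c k k) l)))))))))) (O (c (c l l) (c (d (c l (d l l)) (c l l)) (d (c k k) (c (d (c l (d k (c k k))) l) (d (c k k) (c (d (c l k) l) (d (c k k) (c l (d (c k k) l))))))))))) s) (A (B (O (c (c l l) (c (d (c l l) (c l l)) (d (c k k) (c (d (c l (d k l)) l) (d (c k k) (c (d (c l k) l) (d (c k k) (c l (d (c k k) l)))))))))) (O (c l (c (d l l) (d (c k k) (c (d (c l (d k l)) l) (d (c k k) (c (d (c l k) l) (d (c k k) (c l (d l l))))))))))) (B (O (c (c l l) (c (d (c l (d l l)) (c l l)) (d (c k k) (c (d (c l (d k (c k k))) (c l l)) (d (c k k) (c (d (c l k) l) (d (c k k) (c (d l l) (d (c k k) l)))))))))) (O (c (c l l) (c (d (c l l) (c l l)) (d (c k k) (c (d (c l (d k l)) l) (d (c k k) (c (d (c l k) l) (d (c k k) (c l (d (c k k) l)))))))))))))))) (A (B (A (B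 (A (O (c l (c (d l l) (d (c k k) (c l (d (c k k) (c l l))))))) (O (c l (c (d l l) (d (c k k) (c l (d (c k k) (c l (d l l))))))))) (A (O (c l (c l (d (c k k) (c l (d (c k k) l)))))) (O (c l (c l (d (c k k) (c l (d (c k k) (c l l))))))))) (B (A (O (c l (c (d l l) (d (c k k) (c (d l l) (d (c k k) (c l (d (c k k) l)))))))) (O (c l (c (d l l) (d (c k k) (c (d l l) (d (c k k) (c l (d (c k k) l))))))))) (A (O (c l (c (d l l) (d (c k k) (c l (d (c k k) (c l (d l l)))))))) (O (c l (c (d l l) (d (c k k) (c (d l l) (d (c k k) (c l (d (c k k) l))))))))))) (A (B (A (O (c l (c l (d (c k k) (c l (d (c k k) l)))))) (O (c l (c l (d (c k k) (c l (d (c k k) l))))))) (A (O (c l (c l (d (c k k) (c l (d (c k k) l)))))) (O (c l (c l (d (c k k) (c l (d (c k k) l)))))))) (B (A (O (c l (c l (d (c k k) (c l (d (c k k) (c l l))))))) (O (c l (c l (d (c k k) (c l (d (c k k) (c l (d l l))))))))) (A (O (c l (c l (d (c k k) (c l (d (c k k) (c l l))))))) (O (c l (c l (d (c k k)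 (c l (d (c k k) (c l (d l l)))))))))))) (B (A (B (A (O (c l (c (d l l) (d (c k k) (c (d l l) (d (c k k) (c l (d (c k k) l)))))))) (O (c l (c (d l l) (d (c k k) (c (d (c l (d k l)) l) (d (c k k) (c (d l l) (d (c k k) (c l (d l l))))))))))) (A (O (c l (c (d l l) (d (c k k) (c (d l l) (d (c k k) (c l (d (c k k) l)))))))) (O (c l (c (d l l) (d (c k k) (c (d l l) (d (c k k) (c l (d (c k k) l)))))))))) (B (A (O (c l (c (d l l) (d (c k k) (c (d (c l (d k l)) l) (d (c k k) (c (d (c l k) l) (d (c k k) (c l (d (c k k) l)))))))))) (B (O (c l (c (d l l) (d (c k k) (c (d (c l (d k l)) l) (d (c k k) (c (d (c l k) l) (d (c k k) (c l (d (c k k) l)))))))))) (O (c l (c (d l l) (d (c k k) (c (d (c l (d k l)) l) (d (c k k) (c (d (c l k) l) (d (c k k) (c l (d (c k k) l)))))))))))) (A (O (c l (c (d l l) (d (c k k) (c (d (c l l) l) (d (c k k) (c (d l l) (d (c k k) (c l (d (c k k) l)))))))))) (O (c l (c (d l l) (d (c k k) (c (d (c l (d k l)) l) (d (c k k) (c (d (c l k)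 l) (d (c k k) (c l (d (c k k) l))))))))))))) (A (B (A (O (c l (c (d l l) (d (c k k) (c (d l l) (d (c k k) (c l (d (c k k) l)))))))) (O (c l (c (d l l) (d (c k k) (c (d l l) (d (c k k) (c l (d (c k k) l))))))))) (A (O (c l (c l (d (c k k) (c l (d (c k k) (c l (d l l)))))))) (O (c l (c l (d (c k k) (c l (d (c k k) (c l (d (c k k) l)))))))))) (B (A (O (c l (c (d l l) (d (c k k) (c (d l l) (d (c k k) (c l (d (c k k) (c l l))))))))) (O (c l (c (d l l) (d (c k k) (c (d (c l l) l) (d (c k k) (c (d l l) (d (c k k) (c l (d (c k k) l))))))))))) (A (O (c l (c l (d (c k k) (c (d l l) (d (c k k) (c l (d (c k k) l)))))))) (O (c l (c (d l l) (d (c k k) (c (d l l) (d (c k k) (c l (d (c k k) (c l (d l l)))))))))))))))) (B (A (B s (A (B s (A (B s (A s s)) s)) s)) s) (A (B (A (B (A (B (A (O (c l (c (d l l) (d (c k k) (c (d (c l (d k l)) l) (d (c k k) (c (d l l) (d (c k k) l)))))))) s) (O (c l (c (d l l) (d (c k k) (c (d (c l (d k l)) l) (d (c k k) (c (d (c l k) l)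 (d (c k k) (c l (d (c k k) l))))))))))) (B s (A s s))) (A (B (O (c l (c (d l l) (d (c k k) (c (d (c l (d k l)) l) (d (c k k) (c (d (c l k) l) (d (c k k) (c l (d (c k k) l)))))))))) (O (c l (c (d l l) (d (c k k) (c (d (c l (d k l)) l) (d (c k k) (c (d (c l k) l) (d (c k k) (c l (d (c k k) l))))))))))) (B (A (O (c l (c (d l l) (d (c k k) (c (d (c l l) l) (d (c k k) (c l (d (c k k) l)))))))) (O (c l (c (d l l) (d (c k k) (c (d (c l (d k l)) l) (d (c k k) (c (d l l) (d (c k k) l))))))))) (A (O (c l (c (d l l) (d (c k k) (c (d l l) (d (c k k) (c l (d (c k k) l)))))))) (O (c l (c (d l l) (d (c k k) (c (d (c l l) l) (d (c k k) (c l (d (c k k) l)))))))))))) (B (A s s) (A (B s (A (O (c l (c (d l l) (d (c k k) (c (d (c l l) l) (d (c k k) (c l (d (c k k) l)))))))) s)) s))) (A (B (A (B (O (c l (c (d l l) (d (c k k) (c (d (c l l) l) (d (c k k) (c (d l l) (d (c k k) (c l (d (c k k) l)))))))))) (O (c l (c (d l l) (d (c k k) (c (d l l) (d (c k k) (c l (d (c k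 k) (c l (d l l))))))))))) (B (O (c l (c (d l l) (d (c k k) (c (d (c l (d k l)) l) (d (c k k) (c (d (c l k) l) (d (c k k) (c l (d (c k k) l)))))))))) (O (c l (c (d l l) (d (c k k) (c (d (c l l) l) (d (c k k) (c (d l l) (d (c k k) (c l (d (c k k) l)))))))))))) (A (O (c l (c (d l l) (d (c k k) (c (d l l) (d (c k k) (c (d l l) (d (c k k) (c l (d (c k k) l)))))))))) (B (O (c l (c (d l l) (d (c k k) (c (d l l) (d (c k k) (c (d l l) (d (c k k) (c l (d (c k k) l)))))))))) (O (c l (c (d l l) (d (c k k) (c (d l l) (d (c k k) (c l (d (c k k) (c l (d l l))))))))))))) (B (A (B (A (O (c l (c (d l l) (d (c k k) (c (d l l) (d (c k k) (c l (d (c k k) l)))))))) (O (c l (c (d l l) (d (c k k) (c (d (c l l) l) (d (c k k) (c l (d (c k k) l))))))))) (A (O (c l (c (d l l) (d (c k k) (c (d l l) (d (c k k) (c l (d (c k k) l)))))))) (O (c l (c (d l l) (d (c k k) (c (d l l) (d (c k k) (c l (d (c k k) l)))))))))) (B (A s s) (A (O (c l (c (d l l) (d (c k k) (c (d l l) (d (c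 k k) (c l (d (c k k) l)))))))) (O (c l (c (d l l) (d (c k k) (c (d (c l l) l) (d (c k k) (c l (d (c k k) l))))))))))) (A (B (O (c l (c (d l l) (d (c k k) (c (d (c l l) l) (d (c k k) (c (d (c l k) l) (d (c k k) (c l (d (c k k) l)))))))))) (O (c l (c (d l l) (d (c k k) (c (d l l) (d (c k k) (c (d l l) (d (c k k) (c l (d (c k k) l))))))))))) (B (A (O (c l (c (d l l) (d (c k k) (c (d l l) (d (c k k) (c l (d (c k k) l)))))))) (O (c l (c (d l l) (d (c k k) (c (d l l) (d (c k k) (c l (d (c k k) l))))))))) (A (O (c l (c (d l l) (d (c k k) (c (d l l) (d (c k k) (c l (d (c k k) l)))))))) (O (c l (c (d l l) (d (c k k) (c (d l l) (d (c k k) (c l (d (c k k) l)))))))))))))) (B (A s s) (A (B (A (B s (A s s)) s) (A (B (A (O (c l (c (d l l) (d (c k k) (c (d l l) (d (c k k) (c l (d (c k k) l)))))))) s) (A (O (c l (c (d l l) (d (c k k) (c (d l l) (d (c k k) (c l (d (c k k) l)))))))) (O (c l (c (d l l) (d (c k k) (c (d l l) (d (c k k) (c l (d (c k k) l)))))))))) (B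 s (A (O (c l (c (d l l) (d (c k k) (c (d l l) (d (c k k) (c l (d (c k k) (c l l))))))))) s)))) (B s (A s s)))))))

theorem s00_r10110 : Sound P00 40960 4096 32768 8192 :=
  chkOut_sound P00 tr00_r10110 40960 4096 32768 8192 (by decide +kernel)

end Vale.Agent.P154.I9
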