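import Vale.Agent.P154.I9.Charts

set_option maxRecDepth 100000

namespace Vale.Agent.P154.I9

open Cert InT OutT

/-- Certificate tree. -/
def tr00_r10111 : OutT :=
(A (B (A (B (A (B (O (c l (c l (d (c k k) (c (d l l) (d (c k k) (c l (d (c k k) (c l (d l l)))))))))) (O (c l (c l (d (c k k) (c l (d (c k k) (c l (d (c k k) (c l l)))))))))) (B (A (O (c l (c l (d (c k k) (c l (d (c k k) l)))))) (O (c l (c l (d (c k k) (c l (d (c k k) (c l l)))))))) (A (O (c l (c l (d (c k k) (c l (d (c k k) l)))))) (O (c l (c l (d (c k k) (c l (d (c k k) l))))))))) (A (B (O (c l (c l (d (c k k) (c l (d (c k k) (c l (d (c k k) l)))))))) (O (c l (c l (d (c k k) (c l (d (c k k) (c l (d (c k k) l))))))))) (B (A (O (c l (c l (d (c k k) (c l (d (c k k) l)))))) (O (c l (c l (d (c k k) (c l (d (c k k) l))))))) (A (O (c l (c l (d (c k k) (c l (d l l)))))) (O (c l (c l (d (c k k) (c l (d (c k k) l)))))))))) (B (A (B (A (O (c l (c l (d (c k k) (c l (d (c k k) (c l (d l l)))))))) (O (c l (c l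 (d (c k k) (c l (d (c k k) (c l (d (c k k) l))))))))) (A (O (c l (c l (d (c k k) (c l (d (c k k) (c l l))))))) (O (c l (c l (d (c k k) (c l (d (c k k) (c l (d l l)))))))))) (B (A (O (c l (c l (d (c k k) (c l (d (c k k) (c l (d (c k k) l)))))))) (O (c l (c l (d (c k k) (c (d l l) (d (c k k) (c l (d (c k k) l))))))))) (A (O (c l (c l (d (c k k) (c l (d (c k k) (c l (d (c k k) l)))))))) (O (c l (c l (d (c k k) (c l (d (c k k) (c l (d (c k k) l))))))))))) (A (B (A (O (c l (c l (d (c k k) (c l (d (c k k) l)))))) (O (c l (c l (d (c k k) (c l (d (c k k) (c l l)))))))) (A (O (c l (c l (d (c k k) (c l (d (c k k) l)))))) (O (c l (c l (d (c k k) (c l (d (c k k) l)))))))) (B (A (O (c l (c l (d (c k k) (c l (d (c k k) (c l (d l l)))))))) (O (c l (c l (d (c k k) (c l (d (c k k) (c l (d (c k k) l))))))))) (A (O (c l (c l (d (c k k) (c l (d (c k k) (c l l))))))) (O (c l (c l (d (c k k) (c l (d (c k k) (c l (d l l))))))))))))) (A (B (A (B (O (c l (c l (d (c k k) (c l (d (c k k)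 (c l (d (c k k) l)))))))) (O (c l (c l (d (c k k) (c l (d (c k k) (c l (d (c k k) l))))))))) (B (A (O (c l (c l (d (c k k) (c l (d l l)))))) (O (c l (c l (d (c k k) (c l (d l l))))))) (A (O (c l (c l (d (c k k) (c l (d l l)))))) (O (c l (c l (d (c k k) (c l (d l l))))))))) (A (B (O (c l (c l (d (c k k) (c l (d (c k k) (c l (d l l)))))))) (O (c l (c l (d (c k k) (c l (d (c k k) (c l (d l l))))))))) (B (O (c l (c l (d (c k k) (c l (d (c k k) (c l (d (c k k) (c l (d l l)))))))))) (O (c l (c l (d (c k k) (c l (d (c k k) (c l (d (c k k) (c l (d l l))))))))))))) (B (A (B (A (O (c l (c l (d (c k k) (c l (d (c k k) l)))))) (O (c l (c l (d (c k k) (c l (d (c k k) l))))))) (A (O (c l (c l (d (c k k) (c l (d l l)))))) (O (c l (c l (d (c k k) (c l (d l l)))))))) (B (A (O (c l (c l (d (c k k) (c l (d (c k k) l)))))) (O (c l (c l (d (c k k) (c l (d (c k k) (c l l)))))))) (A (O (c l (c l (d (c k k) (c l (d (c k k) l)))))) (O (c l (c l (d (c k k) (c l (d (c k k) l))))))))) (A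 (B (A (O (c l (c l (d (c k k) (c l (d l l)))))) (O (c l (c l (d (c k k) (c l (d l l))))))) (A (O (c l (c l (d l (c l (d l l)))))) (O (c l (c l (d (c k k) (c l (d l l)))))))) (B (A (O (c l (c l (d (c k k) (c l (d l l)))))) (O (c l (c l (d (c k k) (c l (d (c k k) l))))))) (A (O (c l (c l (d (c k k) (c l (d l l)))))) (O (c l (c l (d (c k k) (c l (d l l)))))))))))) (B (A (B (A (B (A (O (c l (c l (d (c k k) (c (d l l) (d (c k k) (c l (d (c k k) (c l (d (c k k) l)))))))))) (O (c l (c (d l l) (d (c k k) (c (d l l) (d (c k k) (c (d l l) (d (c k k) (c l (d (c k k) l))))))))))) (A (O (c l (c l (d (c k k) (c l (d (c k k) (c l (d (c k k) (c l l))))))))) (B (O (c l (c l (d (c k k) (c l (d (c k k) (c l (d (c k k) l)))))))) (O (c l (c l (d (c k k) (c l (d (c k k) (c l (d (c k k) l))))))))))) (B (A (B (O (c l (c (d l l) (d (c k k) (c (d l l) (d (c k k) (c l (d (c k k) (c l (d (c k k) l)))))))))) (O (c l (c l (d (c k k) (c (d l l) (d (c k k) (c l (d (c k k) (c l (d l l)))))))))))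 (B (O (c l (c (d l l) (d (c k k) (c (d l l) (d (c k k) (c (d l l) (d (c k k) (c l (d (c k k) (c l (d l l)))))))))))) (O (c l (c l (d (c k k) (c (d l l) (d (c k k) (c (d l l) (d (c k k) (c l (d (c k k) l)))))))))))) (A (B (O (c l (c l (d (c k k) (c l (d (c k k) (c l (d (c k k) (c l l))))))))) (O (c l (c l (d (c k k) (c l (d (c k k) (c l (d (c k k) l))))))))) (B (O (c l (c l (d (c k k) (c (d l l) (d (c k k) (c l (d (c k k) (c l (d (c k k) l)))))))))) (O (c l (c l (d (c k k) (c l (d (c k k) (c l (d (c k k) (c l (d (c k k) l)))))))))))))) (A (B (A (O (c l (c l (d (c k k) (c l (d (c k k) (c l (d (c k k) l)))))))) (O (c l (c l (d (c k k) (c l (d (c k k) (c l (d (c k k) (c l (d l l))))))))))) (A (O (c l (c l (d (c k k) (c l (d (c k k) (c l (d (c k k) l)))))))) (O (c l (c l (d (c k k) (c l (d (c k k) (c l (d (c k k) l)))))))))) (B (A (B (O (c l (c l (d (c k k) (c l (d (c k k) (c l (d (c k k) l)))))))) (O (c l (c l (d (c k k) (c l (d (c k k) (c l (d (c k k) l)))))))))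 (B (O (c l (c l (d (c k k) (c l (d (c k k) (c l (d (c k k) (c l l))))))))) (O (c l (c l (d (c k k) (c l (d (c k k) (c l (d (c k k) l)))))))))) (A (O (c l (c l (d (c k k) (c l (d (c k k) (c l (d (c k k) (c l (d l l)))))))))) (B (O (c l (c l (d (c k k) (c l (d (c k k) (c l (d (c k k) l)))))))) (O (c l (c l (d (c k k) (c l (d (c k k) (c l (d (c k k) l))))))))))))) (B (A (B (A (B (A (O (c l (c l (d (c k k) (c (d l l) (d (c k k) (c l (d (c k k) l)))))))) (O (c l (c (d l l) (d (c k k) (c (d l l) (d (c k k) (c l (d (c k k) l))))))))) (A (O (c l (c l (d (c k k) (c l (d (c k k) (c l (d (c k k) l)))))))) (O (c l (c l (d (c k k) (c l (d (c k k) (c l (d (c k k) l)))))))))) (B (A (O (c l (c (d l l) (d (c k k) (c (d l l) (d (c k k) (c l (d (c k k) l)))))))) (O (c l (c (d l l) (d (c k k) (c (d l l) (d (c k k) (c l (d (c k k) (c l l)))))))))) (A (O (c l (c l (d (c k k) (c l (d (c k k) (c l (d (c k k) l)))))))) (O (c l (c l (d (c k k) (c (d l l) (d (c k k) (c l (d (c k k) l)))))))))))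 (A (B (A (O (c l (c l (d (c k k) (c l (d (c k k) (c l (d (c k k) l)))))))) (O (c l (c l (d (c k k) (c l (d (c k k) (c l (d (c k k) l))))))))) (O (c l (c l (d (c k k) (c (d l l) (d (c k k) (c l (d (c k k) (c l (d (c k k) l))))))))))) (B (A (O (c l (c l (d (c k k) (c l (d (c k k) (c l (d (c k k) l)))))))) (O (c l (c l (d (c k k) (c l (d (c k k) (c l (d (c k k) l))))))))) (A (O (c l (c l (d (c k k) (c l (d (c k k) (c l (d (c k k) l)))))))) (O (c l (c l (d (c k k) (c l (d (c k k) (c l (d (c k k) l)))))))))))) (B (A (B (A s s) (A (O (c l (c l (d (c k k) (c (d l l) (d (c k k) (c l (d (c k k) l)))))))) (O (c l (c (d l l) (d (c k k) (c (d l l) (d (c k k) (c l (d (c k k) (c l (d l l)))))))))))) (B s (A s s))) (A (B (A (O (c l (c l (d (c k k) (c l (d (c k k) (c l (d (c k k) l)))))))) (O (c l (c l (d (c k k) (c l (d (c k k) (c l (d (c k k) l))))))))) (A (O (c l (c l (d (c k k) (c l (d (c k k) (c l (d (c k k) l)))))))) (O (c l (c l (d (c k k) (c l (d (c k k) (c l (d (c k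 k) l)))))))))) (B (A (O (c l (c l (d (c k k) (c (d l l) (d (c k k) (c l (d (c k k) (c l l))))))))) (O (c l (c l (d (c k k) (c (d l l) (d (c k k) (c l (d (c k k) (c l (d (c k k) l))))))))))) (A (O (c l (c l (d (c k k) (c l (d (c k k) (c l (d (c k k) l)))))))) (O (c l (c l (d (c k k) (c l (d (c k k) (c l (d (c k k) l))))))))))))) (A (B (A (B (O (c l (c l (d (c k k) (c l (d (c k k) (c l (d (c k k) (c l (d (c k k) l)))))))))) (O (c l (c l (d (c k k) (c l (d (c k k) (c l (d (c k k) (c l (d (c k k) l))))))))))) (B (A (O (c l (c l (d (c k k) (c l (d (c k k) (c l (d l l)))))))) (O (c l (c l (d (c k k) (c l (d (c k k) (c l (d l l))))))))) (A (O (c l (c l (d (c k k) (c l (d (c k k) (c l l))))))) (O (c l (c l (d (c k k) (c l (d (c k k) (c l (d l l))))))))))) (A (B (O (c l (c l (d (c k k) (c l (d (c k k) (c l (d (c k k) (c l (d l l)))))))))) (O (c l (c l (d (c k k) (c l (d (c k k) (c l (d (c k k) l))))))))) (B (A (O (c l (c l (d (c k k) (c l (d (c k k) l)))))) (O (c l (c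 l (d (c k k) (c l (d (c k k) (c l l)))))))) (O (c l (c l (d (c k k) (c l (d (c k k) (c l (d (c k k) (c l (d (c k k) l))))))))))))) (B (A (B (A (O (c l (c l (d (c k k) (c l (d (c k k) (c l (d (c k k) l)))))))) (O (c l (c l (d (c k k) (c l (d (c k k) (c l (d (c k k) l))))))))) (A (O (c l (c l (d (c k k) (c l (d (c k k) (c l (d l l)))))))) (O (c l (c l (d (c k k) (c l (d (c k k) (c l (d l l)))))))))) (B (A (O (c l (c l (d (c k k) (c l (d (c k k) (c l (d (c k k) l)))))))) (O (c l (c l (d (c k k) (c l (d (c k k) (c l (d (c k k) l))))))))) (A (O (c l (c l (d (c k k) (c l (d (c k k) (c l (d (c k k) l)))))))) (O (c l (c l (d (c k k) (c l (d (c k k) (c l (d (c k k) l))))))))))) (A (B (A (O (c l (c l (d (c k k) (c l (d (c k k) (c l l))))))) (O (c l (c l (d (c k k) (c l (d (c k k) (c l (d l l))))))))) (A (O (c l (c l (d (c k k) (c l (d (c k k) l)))))) (O (c l (c l (d (c k k) (c l (d (c k k) (c l l))))))))) (B (A (O (c l (c l (d (c k k) (c l (d (c k k) (c l (d l l))))))))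 (O (c l (c l (d (c k k) (c l (d (c k k) (c l (d l l))))))))) (A (O (c l (c l (d (c k k) (c l (d (c k k) (c l l))))))) (O (c l (c l (d (c k k) (c l (d (c k k) (c l (d l l))))))))))))))) (A (B (A (B (A (O (c l (c l (d (c k k) (c l (d (c k k) (c l (d l l)))))))) (O (c l (c l (d (c k k) (c l (d (c k k) (c l (d (c k k) l))))))))) (A (O (c l (c l (d (c k k) (c l (d (c k k) (c l l))))))) (O (c l (c l (d (c k k) (c l (d (c k k) (c l (d l l)))))))))) (B (A (O (c l (c l (d (c k k) (c l (d (c k k) (c l (d (c k k) l)))))))) (O (c l (c l (d (c k k) (c l (d (c k k) (c l (d (c k k) (c l (d (c k k) l))))))))))) (A (O (c l (c l (d (c k k) (c l (d (c k k) (c l (d (c k k) l)))))))) (O (c l (c l (d (c k k) (c l (d (c k k) (c l (d (c k k) (c l l)))))))))))) (A (B (A (O (c l (c l (d (c k k) (c l (d (c k k) l)))))) (O (c l (c l (d (c k k) (c l (d (c k k) (c l l)))))))) (A (O (c l (c l (d (c k k) (c l (d l l)))))) (O (c l (c l (d (c k k) (c l (d (c k k) l)))))))) (B (A (O (c l (c l (d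 (c k k) (c l (d (c k k) (c l (d l l)))))))) (O (c l (c l (d (c k k) (c l (d (c k k) (c l (d (c k k) l))))))))) (A (O (c l (c l (d (c k k) (c l (d (c k k) (c l l))))))) (O (c l (c l (d (c k k) (c l (d (c k k) (c l (d l l)))))))))))) (B (A (B (A (B (O (c l (c l (d (c k k) (c l (d (c k k) (c l (d (c k k) l)))))))) (O (c l (c l (d (c k k) (c l (d (c k k) (c l (d (c k k) l))))))))) (B (O (c l (c l (d (c k k) (c l (d (c k k) (c l (d (c k k) (c l (d l l)))))))))) (O (c l (c l (d (c k k) (c l (d (c k k) (c l (d (c k k) l)))))))))) (A (O (c l (c l (d (c k k) (c l (d (c k k) (c l (d (c k k) (c l (d (c k k) l)))))))))) (B (O (c l (c l (d (c k k) (c l (d (c k k) (c l (d (c k k) l)))))))) (O (c l (c l (d (c k k) (c l (d (c k k) (c l (d (c k k) l))))))))))) (B (A (B (O (c l (c l (d (c k k) (c l (d (c k k) (c l (d (c k k) (c l (d (c k k) l)))))))))) (O (c l (c l (d (c k k) (c l (d (c k k) (c l (d (c k k) (c l (d (c k k) l))))))))))) (B (A (O (c l (c l (d (c k k) (c l (d (c k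 k) l)))))) (O (c l (c l (d (c k k) (c l (d (c k k) (c l l)))))))) (A (O (c l (c l (d (c k k) (c l (d (c k k) l)))))) (O (c l (c l (d (c k k) (c l (d (c k k) l))))))))) (A (B (O (c l (c l (d (c k k) (c l (d (c k k) (c l (d (c k k) (c l (d l l)))))))))) (O (c l (c l (d (c k k) (c l (d (c k k) (c l (d (c k k) l))))))))) (B (O (c l (c l (d (c k k) (c l (d (c k k) (c l (d (c k k) (c l (d (c k k) l)))))))))) (O (c l (c l (d (c k k) (c l (d (c k k) (c l (d (c k k) (c l (d (c k k) l)))))))))))))) (A (B (A (O (c l (c l (d (c k k) (c l (d (c k k) (c l (d (c k k) (c l (d l l)))))))))) (O (c l (c l (d (c k k) (c l (d (c k k) (c l (d (c k k) (c l (d (c k k) l))))))))))) (A (O (c l (c l (d (c k k) (c l (d (c k k) (c l (d (c k k) l)))))))) (O (c l (c l (d (c k k) (c l (d (c k k) (c l (d (c k k) (c l (d l l)))))))))))) (B (A (B (O (c l (c l (d (c k k) (c l (d (c k k) (c l (d (c k k) l)))))))) (O (c l (c l (d (c k k) (c l (d (c k k) (c l (d l l))))))))) (B (O (c l (c l (d (c k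 k) (c l (d (c k k) (c l (d (c k k) (c l (d l l)))))))))) (O (c l (c l (d (c k k) (c l (d (c k k) (c l (d (c k k) l)))))))))) (A (B (O (c l (c l (d (c k k) (c l (d (c k k) (c l (d l l)))))))) (O (c l (c l (d (c k k) (c l (d (c k k) (c l (d l l))))))))) (B (O (c l (c l (d (c k k) (c l (d (c k k) (c l (d (c k k) l)))))))) (O (c l (c l (d (c k k) (c l (d (c k k) (c l (d l l))))))))))))))))

theorem s00_r10111 : Sound P00 40960 4096 49152 8192 :=
  chkOut_sound P00 tr00_r10111 40960 4096 49152 8192 (by decide +kernel)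

end Vale.Agent.P154.I9
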