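import Vale.Agent.P154.I9.Charts

set_option maxRecDepth 100000

namespace Vale.Agent.P154.I9

open Cert InT OutT

/-- Certificate tree. -/
def tr00_r111010 : OutT :=
(B (A (B (A (B (A s s) (A (B (A s s) (A (O (c l (c l (d (c k k) (c l (d (c k k) (c l (d (c k k) (c l (d l l)))))))))) (O (c l (c l (d (c k k) (c (d l l) (d (c k k) (c l (d (c k k) (c l (d (c k k) l)))))))))))) (B s (A s s)))) (B s (A s s))) (A (B (A (B (A (O (c l (c l (d (c k k) (c l (d (c k k) (c l (d (c k k) l)))))))) (O (c l (c l (d (c k k) (c l (d (c k k) (c l (d (c k k) (c l l)))))))))) (A (O (c l (c l (d (c k k) (c l (d (c k k) (c l (d (c k k) l)))))))) (O (c l (c l (d (c k k) (c l (d (c k k) (c l (d (c k k) l)))))))))) (B (A (O (c l (c l (d (c k k) (c l (d (c k k) (c l (d (c k k) (c l (d l l)))))))))) (O (c l (c l (d (c k k) (c l (d (c k k) (c l (d (c k k) (c l (d (c k k) l))))))))))) (A (O (c l (c l (d (c k k) (c l (d (c k k) (c l (d (c k k) l)))))))) (O (c l (c l (d (c k k) (c l (d (c k k)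 (c l (d (c k k) (c l (d l l))))))))))))) (A (B (A (O (c l (c l (d (c k k) (c l (d (c k k) (c l (d (c k k) l)))))))) (O (c l (c l (d (c k k) (c l (d (c k k) (c l (d (c k k) l))))))))) (A (O (c l (c l (d (c k k) (c l (d (c k k) (c l (d l l)))))))) (O (c l (c l (d (c k k) (c l (d (c k k) (c l (d l l)))))))))) (B (A (O (c l (c l (d (c k k) (c l (d (c k k) (c l (d (c k k) l)))))))) (O (c l (c l (d (c k k) (c l (d (c k k) (c l (d (c k k) l))))))))) (A (O (c l (c l (d (c k k) (c l (d (c k k) (c l (d (c k k) l)))))))) (O (c l (c l (d (c k k) (c l (d (c k k) (c l (d (c k k) l)))))))))))) (B (A (B (A s s) (A (O (c l (c l (d (c k k) (c l (d (c k k) (c l (d (c k k) (c l (d (c k k) l)))))))))) (O (c l (c l (d (c k k) (c l (d (c k k) (c l (d (c k k) (c l (d (c k k) l)))))))))))) (B s (A s s))) (A (B (A (O (c l (c l (d (c k k) (c l (d (c k k) (c l (d (c k k) l)))))))) (O (c l (c l (d (c k k) (c l (d (c k k) (c l (d (c k k) (c l (d l l))))))))))) (A (O (c l (c l (d (c k k) (c l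 (d (c k k) (c l (d (c k k) l)))))))) (O (c l (c l (d (c k k) (c l (d (c k k) (c l (d (c k k) l)))))))))) (B (A (O (c l (c l (d (c k k) (c l (d (c k k) (c l (d (c k k) (c l (d (c k k) l)))))))))) (O (c l (c l (d (c k k) (c l (d (c k k) (c l (d (c k k) (c l (d (c k k) l))))))))))) (A (O (c l (c l (d (c k k) (c l (d (c k k) (c l (d (c k k) (c l l))))))))) (O (c l (c l (d (c k k) (c l (d (c k k) (c l (d (c k k) (c l (d l l)))))))))))))))) (B (A s s) (A (B (A s s) (A (B (A (O (c l (c l (d (c k k) (c l (d (c k k) (c l (d (c k k) (c l (d (c k k) (c l l))))))))))) s) (A (O (c l (c l (d (c k k) (c l (d (c k k) (c l (d (c k k) (c l (d (c k k) l)))))))))) (O (c l (c l (d (c k k) (c l (d (c k k) (c l (d (c k k) (c l (d (c k k) l)))))))))))) (B (A s s) (A (O (c l (c l (d (c k k) (c l (d (c k k) (c l (d (c k k) (c l (d (c k k) (c l (d l l)))))))))))) s)))) (B (A s s) (A (B s (A s s)) s))))) (A (B (A (B (A (B (A (O (c l (c l (d (c k k) (c l (d (c k k) (c l l))))))) (O (c l (c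 l (d (c k k) (c l (d (c k k) (c l (d l l))))))))) (A (O (c l (c l (d (c k k) (c l (d (c k k) l)))))) (O (c l (c l (d (c k k) (c l (d (c k k) (c l l))))))))) (B (A (O (c l (c l (d (c k k) (c l (d (c k k) (c l (d l l)))))))) (O (c l (c l (d (c k k) (c l (d (c k k) (c l (d l l))))))))) (A (O (c l (c l (d (c k k) (c l (d (c k k) (c l l))))))) (O (c l (c l (d (c k k) (c l (d (c k k) (c l (d l l))))))))))) (A (B (A (O (c l (c l (d (c k k) (c l (d (c k k) l)))))) (O (c l (c l (d (c k k) (c l (d (c k k) l))))))) (A (O (c l (c l (d (c k k) (c l (d (c k k) l)))))) (O (c l (c l (d (c k k) (c l (d (c k k) l)))))))) (B (A (O (c l (c l (d (c k k) (c l (d (c k k) l)))))) (O (c l (c l (d (c k k) (c l (d (c k k) l))))))) (A (O (c l (c l (d (c k k) (c l (d (c k k) l)))))) (O (c l (c l (d (c k k) (c l (d (c k k) l)))))))))) (B (A (B (A (O (c l (c l (d (c k k) (c l (d (c k k) (c l (d (c k k) l)))))))) (O (c l (c l (d (c k k) (c l (d (c k k) (c l (d (c k k) l))))))))) (A (O (c l (c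 l (d (c k k) (c l (d (c k k) (c l (d l l)))))))) (O (c l (c l (d (c k k) (c l (d (c k k) (c l (d l l)))))))))) (B (A (O (c l (c l (d (c k k) (c l (d (c k k) (c l (d (c k k) l)))))))) (O (c l (c l (d (c k k) (c l (d (c k k) (c l (d (c k k) l))))))))) (A (O (c l (c l (d (c k k) (c l (d (c k k) (c l (d (c k k) l)))))))) (O (c l (c l (d (c k k) (c l (d (c k k) (c l (d (c k k) l))))))))))) (A (B (A (O (c l (c l (d (c k k) (c l (d (c k k) (c l l))))))) (O (c l (c l (d (c k k) (c l (d (c k k) (c l (d l l))))))))) (A (O (c l (c l (d (c k k) (c l (d (c k k) l)))))) (O (c l (c l (d (c k k) (c l (d (c k k) l)))))))) (B (A (O (c l (c l (d (c k k) (c l (d (c k k) (c l (d l l)))))))) (O (c l (c l (d (c k k) (c l (d (c k k) (c l (d l l))))))))) (A (O (c l (c l (d (c k k) (c l (d (c k k) (c l l))))))) (O (c l (c l (d (c k k) (c l (d (c k k) (c l l)))))))))))) (A (B (A (B (O (c l (c l (d (c k k) (c l (d (c k k) (c l (d (c k k) (c l (d (c k k) (c l l))))))))))) (O (c l (c l (d (c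 k k) (c l (d (c k k) (c l (d (c k k) (c l (d (c k k) l))))))))))) (B (A (O (c l (c l (d (c k k) (c l (d l l)))))) (O (c l (c l (d (c k k) (c l (d (c k k) l))))))) (A (O (c l (c l (d (c k k) (c l (d l l)))))) (O (c l (c l (d (c k k) (c l (d l l))))))))) (A (B (O (c l (c l (d (c k k) (c l (d (c k k) (c l (d (c k k) (c l (d l l)))))))))) (O (c l (c l (d (c k k) (c l (d (c k k) (c l (d (c k k) l))))))))) (B (O (c l (c l (d (c k k) (c l (d (c k k) (c l (d (c k k) (c l (d (c k k) (c l (d l l)))))))))))) (O (c l (c l (d (c k k) (c l (d (c k k) (c l (d (c k k) (c l (d (c k k) l))))))))))))) (B (A (B (A (O (c l (c l (d (c k k) (c l (d (c k k) l)))))) (O (c l (c l (d (c k k) (c l (d (c k k) l))))))) (A (O (c l (c l (d (c k k) (c l (d l l)))))) (O (c l (c l (d (c k k) (c l (d l l)))))))) (B (A (O (c l (c l (d (c k k) (c l (d (c k k) l)))))) (O (c l (c l (d (c k k) (c l (d (c k k) l))))))) (A (O (c l (c l (d (c k k) (c l (d l l)))))) (O (c l (c l (d (c k k) (c l (d (c k k)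 l))))))))) (A (B (A (O (c l (c l (d (c k k) (c l (d l l)))))) (O (c l (c l (d (c k k) (c l (d l l))))))) (A (O (c l (c l (d l (c l (d l l)))))) (O (c l (c l (d l (c l (d l l)))))))) (B (A (O (c l (c l (d (c k k) (c l (d l l)))))) (O (c l (c l (d (c k k) (c l (d l l))))))) (A (O (c l (c l (d l (c l (d l l)))))) (O (c l (c l (d (c k k) (c l (d l l)))))))))))) (B (A (B (A (B (A (O (c l (c l (d (c k k) (c l (d (c k k) (c l (d (c k k) (c l l))))))))) (O (c l (c l (d (c k k) (c l (d (c k k) (c l (d (c k k) (c l (d (c k k) l))))))))))) (A (O (c l (c l (d (c k k) (c l (d (c k k) (c l (d (c k k) l)))))))) (O (c l (c l (d (c k k) (c l (d (c k k) (c l (d (c k k) l)))))))))) (B (A (O (c l (c l (d (c k k) (c l (d (c k k) (c l (d (c k k) (c l (d (c k k) l)))))))))) (O (c l (c l (d (c k k) (c l (d (c k k) (c l (d (c k k) (c l (d (c k k) l))))))))))) (A (O (c l (c l (d (c k k) (c l (d (c k k) (c l (d (c k k) (c l (d l l)))))))))) (O (c l (c l (d (c k k) (c l (d (c k k) (c l (d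 (c k k) (c l (d (c k k) l))))))))))))) (A (B (A (O (c l (c l (d (c k k) (c l (d (c k k) (c l (d (c k k) l)))))))) (O (c l (c l (d (c k k) (c l (d (c k k) (c l (d (c k k) l))))))))) (A (O (c l (c l (d (c k k) (c l (d (c k k) (c l (d l l)))))))) (O (c l (c l (d (c k k) (c l (d (c k k) (c l (d l l)))))))))) (B (A (O (c l (c l (d (c k k) (c l (d (c k k) (c l (d (c k k) l)))))))) (O (c l (c l (d (c k k) (c l (d (c k k) (c l (d (c k k) l))))))))) (A (O (c l (c l (d (c k k) (c l (d (c k k) (c l (d (c k k) l)))))))) (O (c l (c l (d (c k k) (c l (d (c k k) (c l (d (c k k) l)))))))))))) (B (A (B (A (O (c l (c l (d (c k k) (c l (d (c k k) (c l (d (c k k) (c l (d (c k k) (c l (d (c k k) l)))))))))))) (B s (O (c l (c l (d (c k k) (c l (d (c k k) (c l (d (c k k) (c l (d l l)))))))))))) (A (O (c l (c l (d (c k k) (c l (d (c k k) (c l (d (c k k) (c l (d (c k k) l)))))))))) (O (c l (c l (d (c k k) (c l (d (c k k) (c l (d (c k k) (c l (d (c k k) (c l (d l l)))))))))))))) (B (A s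 s) (A (O (c l (c l (d (c k k) (c l (d (c k k) (c l (d (c k k) (c l (d (c k k) (c l (d (c k k) l)))))))))))) (B (O (c l (c l (d (c k k) (c l (d (c k k) (c l (d (c k k) (c l (d (c k k) l)))))))))) (O (c l (c l (d (c k k) (c l (d (c k k) (c l (d (c k k) (c l l))))))))))))) (A (B (A (O (c l (c l (d (c k k) (c l (d (c k k) (c l (d (c k k) (c l (d l l)))))))))) (O (c l (c l (d (c k k) (c l (d (c k k) (c l (d (c k k) (c l (d (c k k) l))))))))))) (A (O (c l (c l (d (c k k) (c l (d (c k k) (c l (d (c k k) l)))))))) (O (c l (c l (d (c k k) (c l (d (c k k) (c l (d (c k k) l)))))))))) (B (A (O (c l (c l (d (c k k) (c l (d (c k k) (c l (d (c k k) (c l (d (c k k) l)))))))))) (O (c l (c l (d (c k k) (c l (d (c k k) (c l (d (c k k) (c l (d (c k k) (c l (d l l))))))))))))) (A (O (c l (c l (d (c k k) (c l (d (c k k) (c l (d (c k k) (c l (d l l)))))))))) (O (c l (c l (d (c k k) (c l (d (c k k) (c l (d (c k k) (c l (d (c k k) l))))))))))))))) (A (B (A (B (A (O (c l (c l (d (c k k)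 (c l (d (c k k) (c l l))))))) (O (c l (c l (d (c k k) (c l (d (c k k) (c l l)))))))) (A (O (c l (c l (d (c k k) (c l (d (c k k) l)))))) (O (c l (c l (d (c k k) (c l (d (c k k) l)))))))) (B (A (O (c l (c l (d (c k k) (c l (d (c k k) (c l (d l l)))))))) (O (c l (c l (d (c k k) (c l (d (c k k) (c l (d l l))))))))) (A (O (c l (c l (d (c k k) (c l (d (c k k) (c l l))))))) (O (c l (c l (d (c k k) (c l (d (c k k) (c l l)))))))))) (A (B (A (O (c l (c l (d (c k k) (c l (d l l)))))) (O (c l (c l (d (c k k) (c l (d l l))))))) (A (O (c l (c l (d (c k k) (c l (d l l)))))) (O (c l (c l (d (c k k) (c l (d l l)))))))) (B (A (O (c l (c l (d (c k k) (c l (d (c k k) l)))))) (O (c l (c l (d (c k k) (c l (d (c k k) l))))))) (A (O (c l (c l (d (c k k) (c l (d l l)))))) (O (c l (c l (d (c k k) (c l (d l l)))))))))) (B (A (B (A (O (c l (c l (d (c k k) (c l (d (c k k) (c l (d l l)))))))) (O (c l (c l (d (c k k) (c l (d (c k k) (c l (d (c k k) l))))))))) (A (O (c l (c l (d (c k k) (c l (d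 (c k k) (c l (d l l)))))))) (O (c l (c l (d (c k k) (c l (d (c k k) (c l (d l l)))))))))) (B (A (O (c l (c l (d (c k k) (c l (d (c k k) (c l (d (c k k) l)))))))) (O (c l (c l (d (c k k) (c l (d (c k k) (c l (d (c k k) l))))))))) (A (O (c l (c l (d (c k k) (c l (d (c k k) (c l (d l l)))))))) (O (c l (c l (d (c k k) (c l (d (c k k) (c l (d (c k k) l))))))))))) (A (B (A (O (c l (c l (d (c k k) (c l (d (c k k) l)))))) (O (c l (c l (d (c k k) (c l (d (c k k) (c l l)))))))) (A (O (c l (c l (d (c k k) (c l (d l l)))))) (O (c l (c l (d (c k k) (c l (d (c k k) l)))))))) (B (A (O (c l (c l (d (c k k) (c l (d (c k k) (c l (d l l)))))))) (O (c l (c l (d (c k k) (c l (d (c k k) (c l (d l l))))))))) (A (O (c l (c l (d (c k k) (c l (d (c k k) l)))))) (O (c l (c l (d (c k k) (c l (d (c k k) (c l l)))))))))))))))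

theorem s00_r111010 : Sound P00 49152 2048 49152 8192 :=
  chkOut_sound P00 tr00_r111010 49152 2048 49152 8192 (by decide +kernel)

end Vale.Agent.P154.I9
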