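import Vale.Agent.P154.I9.Charts

set_option maxRecDepth 100000

namespace Vale.Agent.P154.I9

open Cert InT OutT

/-- Certificate tree. -/
def tr00_r111011 : OutT :=
(B (A (B s (A (B s (A s s)) s)) (B s (A s s))) (A (B (A (B (A (B (A s s) (A (B s (O (c l (c l (d (c k k) (c l (d (c k k) (c l (d (c k k) (c l (d l l))))))))))) (B s (O (c l (c l (d (c k k) (c l (d (c k k) (c l (d (c k k) (c l (d (c k k) l))))))))))))) (B s (A s s))) (A (B (A (O (c l (c l (d (c k k) (c l (d (c k k) (c l (d (c k k) (c l (d (c k k) (c l (d (c k k) (c l (d l l)))))))))))))) (B (O (c l (c l (d (c k k) (c l (d (c k k) (c l (d (c k k) (c l (d l l)))))))))) (O (c l (c l (d (c k k) (c l (d (c k k) (c l (d (c k k) l)))))))))) (A (O (c l (c l (d (c k k) (c l (d (c k k) (c l (d (c k k) (c l (d (c k k) l)))))))))) (O (c l (c l (d (c k k) (c l (d (c k k) (c l (d (c k k) (c l (d (c k k) (c l (d (c k k) l)))))))))))))) (B (A (B (O (c l (c l (d (c k k) (c l (d (c k k) (c l (d (c k k) (c l (d (c k k)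 l)))))))))) (O (c l (c l (d (c k k) (c l (d (c k k) (c l (d (c k k) (c l (d l l))))))))))) (B (O (c l (c l (d (c k k) (c l (d (c k k) (c l (d (c k k) (c l (d (c k k) l)))))))))) (O (c l (c l (d (c k k) (c l (d (c k k) (c l (d (c k k) (c l (d (c k k) l)))))))))))) (A (B (O (c l (c l (d (c k k) (c l (d (c k k) (c l (d (c k k) l)))))))) (O (c l (c l (d (c k k) (c l (d (c k k) (c l (d (c k k) l))))))))) (B (O (c l (c l (d (c k k) (c l (d (c k k) (c l (d (c k k) (c l (d l l)))))))))) (O (c l (c l (d (c k k) (c l (d (c k k) (c l (d (c k k) l))))))))))))) (B (A (B s (A s s)) s) (A (B (A (B s (O (c l (c l (d (c k k) (c l (d (c k k) (c l (d (c k k) (c l (d (c k k) l))))))))))) (B s (O (c l (c l (d (c k k) (c l (d (c k k) (c l (d (c k k) (c l (d (c k k) (c l (d (c k k) l)))))))))))))) (A (B (O (c l (c l (d (c k k) (c l (d (c k k) (c l (d (c k k) (c l (d (c k k) l)))))))))) (O (c l (c l (d (c k k) (c l (d (c k k) (c l (d (c k k) (c l (d l l))))))))))) (B (O (c l (c l (d (c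 k k) (c l (d (c k k) (c l (d (c k k) (c l (d (c k k) l)))))))))) (O (c l (c l (d (c k k) (c l (d (c k k) (c l (d (c k k) (c l (d (c k k) l))))))))))))) (B (A s s) (A (B (O (c l (c l (d (c k k) (c l (d (c k k) (c l (d (c k k) (c l (d (c k k) (c l (d l l)))))))))))) (O (c l (c l (d (c k k) (c l (d (c k k) (c l (d (c k k) (c l (d (c k k) l))))))))))) (B (O (c l (c l (d (c k k) (c l (d (c k k) (c l (d (c k k) (c l (d (c k k) (c l (d (c k k) (c l (d l l)))))))))))))) (O (c l (c l (d (c k k) (c l (d (c k k) (c l (d (c k k) (c l (d (c k k) (c l (d l l)))))))))))))))))) (A (B (A (B (A (O (c l (c l (d (c k k) (c l (d (c k k) (c l (d (c k k) (c l (d l l)))))))))) (O (c l (c l (d (c k k) (c l (d (c k k) (c l (d (c k k) (c l (d (c k k) l))))))))))) (A (O (c l (c l (d (c k k) (c l (d (c k k) (c l (d (c k k) l)))))))) (O (c l (c l (d (c k k) (c l (d (c k k) (c l (d (c k k) (c l l))))))))))) (B (A (O (c l (c l (d (c k k) (c l (d (c k k) (c l (d (c k k) (c l (d (c k k) (c l l)))))))))))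 (O (c l (c l (d (c k k) (c l (d (c k k) (c l (d (c k k) (c l (d (c k k) (c l (d (c k k) l))))))))))))) (A (O (c l (c l (d (c k k) (c l (d (c k k) (c l (d (c k k) (c l (d l l)))))))))) (O (c l (c l (d (c k k) (c l (d (c k k) (c l (d (c k k) (c l (d (c k k) l))))))))))))) (A (B (A (O (c l (c l (d (c k k) (c l (d (c k k) (c l (d l l)))))))) (O (c l (c l (d (c k k) (c l (d (c k k) (c l (d l l))))))))) (A (O (c l (c l (d (c k k) (c l (d (c k k) (c l l))))))) (O (c l (c l (d (c k k) (c l (d (c k k) (c l (d l l)))))))))) (B (A (O (c l (c l (d (c k k) (c l (d (c k k) (c l (d (c k k) l)))))))) (O (c l (c l (d (c k k) (c l (d (c k k) (c l (d (c k k) (c l l)))))))))) (A (O (c l (c l (d (c k k) (c l (d (c k k) (c l (d l l)))))))) (O (c l (c l (d (c k k) (c l (d (c k k) (c l (d l l)))))))))))) (B (A (B (A (B (O (c l (c l (d (c k k) (c l (d (c k k) (c l (d (c k k) l)))))))) (O (c l (c l (d (c k k) (c l (d (c k k) (c l (d (c k k) l))))))))) (B (O (c l (c l (d (c k k) (c l (d (c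 k k) (c l (d (c k k) (c l (d l l)))))))))) (O (c l (c l (d (c k k) (c l (d (c k k) (c l (d (c k k) l)))))))))) (A (O (c l (c l (d (c k k) (c l (d (c k k) (c l (d (c k k) (c l (d (c k k) (c l (d l l)))))))))))) (O (c l (c l (d (c k k) (c l (d (c k k) (c l (d (c k k) (c l (d (c k k) (c l (d (c k k) (c l (d l l)))))))))))))))) (B (A (B (O (c l (c l (d (c k k) (c l (d (c k k) (c l (d (c k k) (c l (d l l)))))))))) (O (c l (c l (d (c k k) (c l (d (c k k) (c l (d (c k k) (c l l)))))))))) (B (O (c l (c l (d (c k k) (c l (d (c k k) (c l (d (c k k) (c l (d (c k k) l)))))))))) (O (c l (c l (d (c k k) (c l (d (c k k) (c l (d (c k k) (c l (d l l)))))))))))) (A (B (O (c l (c l (d (c k k) (c l (d (c k k) (c l (d (c k k) l)))))))) (O (c l (c l (d (c k k) (c l (d (c k k) (c l (d (c k k) l))))))))) (B (O (c l (c l (d (c k k) (c l (d (c k k) (c l (d (c k k) (c l l))))))))) (O (c l (c l (d (c k k) (c l (d (c k k) (c l (d (c k k) l)))))))))))) (A (B (A (O (c l (c l (d (c k k) (c l (d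 (c k k) (c l (d (c k k) (c l (d l l)))))))))) (O (c l (c l (d (c k k) (c l (d (c k k) (c l (d (c k k) (c l (d (c k k) l))))))))))) (A (O (c l (c l (d (c k k) (c l (d (c k k) (c l (d (c k k) l)))))))) (O (c l (c l (d (c k k) (c l (d (c k k) (c l (d (c k k) (c l l))))))))))) (B (A (O (c l (c l (d (c k k) (c l (d (c k k) (c l (d (c k k) (c l (d (c k k) (c l (d l l)))))))))))) (O (c l (c l (d (c k k) (c l (d (c k k) (c l (d (c k k) (c l (d (c k k) (c l (d (c k k) (c l (d (c k k) l))))))))))))))) (A (O (c l (c l (d (c k k) (c l (d (c k k) (c l (d (c k k) (c l (d l l)))))))))) (O (c l (c l (d (c k k) (c l (d (c k k) (c l (d (c k k) (c l (d (c k k) l)))))))))))))))) (B (A (B (A s s) (A (B (A s s) (A (B s (O (c l (c l (d (c k k) (c l (d (c k k) (c l (d (c k k) (c l (d (c k k) (c l (d (c k k) (c l (d l l))))))))))))))) (B s (A s s)))) (B s (A s s)))) (B s (A (B s (A s s)) (B s (A s s))))) (A (B (A (B (A (B (O (c l (c l (d (c k k) (c l (d (c k k) (c l (d (c k k) (c l (d (c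 k k) (c l (d l l)))))))))))) (O (c l (c l (d (c k k) (c l (d (c k k) (c l (d (c k k) (c l (d (c k k) l))))))))))) (B (O (c l (c l (d (c k k) (c l (d (c k k) (c l (d (c k k) (c l (d (c k k) (c l (d (c k k) (c l (d l l)))))))))))))) (O (c l (c l (d (c k k) (c l (d (c k k) (c l (d (c k k) (c l (d (c k k) (c l (d l l)))))))))))))) (A (B (O (c l (c l (d (c k k) (c l (d (c k k) (c l (d (c k k) (c l (d l l)))))))))) (O (c l (c l (d (c k k) (c l (d (c k k) (c l (d (c k k) l))))))))) (B (O (c l (c l (d (c k k) (c l (d (c k k) (c l (d (c k k) (c l (d (c k k) l)))))))))) (O (c l (c l (d (c k k) (c l (d (c k k) (c l (d (c k k) (c l (d l l))))))))))))) (B (A (B (A (O (c l (c l (d (c k k) (c l (d (c k k) (c l l))))))) s) (O (c l (c l (d (c k k) (c l (d (c k k) (c l (d (c k k) (c l (d (c k k) (c l (d (c k k) (c l (d l l))))))))))))))) (B (A s s) (A (O (c l (c l (d (c k k) (c l (d (c k k) l)))))) (O (c l (c l (d (c k k) (c l (d (c k k) (c l l)))))))))) (A (B (O (c l (c l (d (c k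 k) (c l (d (c k k) (c l (d (c k k) (c l (d (c k k) (c l (d l l)))))))))))) (O (c l (c l (d (c k k) (c l (d (c k k) (c l (d (c k k) (c l (d (c k k) l))))))))))) (B (O (c l (c l (d (c k k) (c l (d (c k k) (c l (d (c k k) (c l (d (c k k) (c l (d (c k k) (c l l))))))))))))) (O (c l (c l (d (c k k) (c l (d (c k k) (c l (d (c k k) (c l (d (c k k) (c l (d l l)))))))))))))))) (A (B (A (B (O (c l (c l (d (c k k) (c l (d (c k k) (c l (d (c k k) l)))))))) (O (c l (c l (d (c k k) (c l (d (c k k) (c l (d l l))))))))) (B (O (c l (c l (d (c k k) (c l (d (c k k) (c l (d (c k k) l)))))))) (O (c l (c l (d (c k k) (c l (d (c k k) (c l (d (c k k) l)))))))))) (A (O (c l (c l (d (c k k) (c l (d (c k k) (c l (d (c k k) (c l (d (c k k) (c l (d (c k k) l)))))))))))) (B (O (c l (c l (d (c k k) (c l (d (c k k) (c l (d l l)))))))) (O (c l (c l (d (c k k) (c l (d (c k k) (c l (d l l))))))))))) (B (A (B (O (c l (c l (d (c k k) (c l (d (c k k) (c l (d (c k k) (c l (d l l)))))))))) (O (c l (c l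 (d (c k k) (c l (d (c k k) (c l (d (c k k) l))))))))) (B (O (c l (c l (d (c k k) (c l (d (c k k) (c l (d (c k k) (c l (d (c k k) l)))))))))) (O (c l (c l (d (c k k) (c l (d (c k k) (c l (d (c k k) (c l (d l l)))))))))))) (A (B (O (c l (c l (d (c k k) (c l (d (c k k) (c l (d l l)))))))) (O (c l (c l (d (c k k) (c l (d (c k k) (c l (d l l))))))))) (B (O (c l (c l (d (c k k) (c l (d (c k k) (c l (d (c k k) l)))))))) (O (c l (c l (d (c k k) (c l (d (c k k) (c l (d l l))))))))))))) (B (A (B (A (B (A s s) (A (O (c l (c l (d (c k k) (c l (d (c k k) (c l l))))))) (O (c l (c l (d (c k k) (c l (d (c k k) (c l l))))))))) (B s (A s s))) (A (B (A (O (c l (c l (d (c k k) (c l (d (c k k) l)))))) (O (c l (c l (d (c k k) (c l (d (c k k) l))))))) (O (c l (c l (d (c k k) (c l (d (c k k) (c l (d (c k k) (c l (d (c k k) (c l (d (c k k) l))))))))))))) (B (A (O (c l (c l (d (c k k) (c l (d (c k k) l)))))) (O (c l (c l (d (c k k) (c l (d (c k k) l))))))) (A (O (c l (c l (d (c k k) (c l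 (d (c k k) l)))))) (O (c l (c l (d (c k k) (c l (d (c k k) l)))))))))) (B (A (B s (A s s)) (B s (A s s))) (A (B (A (O (c l (c l (d (c k k) (c l (d (c k k) (c l l))))))) (O (c l (c l (d (c k k) (c l (d (c k k) (c l l)))))))) (A (O (c l (c l (d (c k k) (c l (d (c k k) l)))))) (O (c l (c l (d (c k k) (c l (d (c k k) l)))))))) (B (A (O (c l (c l (d (c k k) (c l (d (c k k) (c l l))))))) (O (c l (c l (d (c k k) (c l (d (c k k) (c l l)))))))) (A (O (c l (c l (d (c k k) (c l (d (c k k) l)))))) (O (c l (c l (d (c k k) (c l (d (c k k) l))))))))))) (A (B (A (B (O (c l (c l (d (c k k) (c l (d (c k k) (c l (d (c k k) (c l (d (c k k) (c l (d l l)))))))))))) (O (c l (c l (d (c k k) (c l (d (c k k) (c l (d (c k k) (c l (d l l))))))))))) (B (O (c l (c l (d (c k k) (c l (d (c k k) (c l (d (c k k) (c l (d (c k k) (c l (d (c k k) l)))))))))))) (O (c l (c l (d (c k k) (c l (d (c k k) (c l (d (c k k) (c l (d (c k k) (c l l))))))))))))) (A (B (O (c l (c l (d (c k k) (c l (d (c k k) (c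 l (d (c k k) (c l (d l l)))))))))) (O (c l (c l (d (c k k) (c l (d (c k k) (c l (d (c k k) l))))))))) (B (O (c l (c l (d (c k k) (c l (d (c k k) (c l (d (c k k) (c l (d l l)))))))))) (O (c l (c l (d (c k k) (c l (d (c k k) (c l (d (c k k) (c l l)))))))))))) (B (A (B (A (O (c l (c l (d (c k k) (c l (d l l)))))) (O (c l (c l (d (c k k) (c l (d (c k k) l))))))) (O (c l (c l (d (c k k) (c l (d (c k k) (c l (d (c k k) (c l (d (c k k) (c l (d (c k k) l))))))))))))) (B (A (O (c l (c l (d (c k k) (c l (d (c k k) l)))))) (O (c l (c l (d (c k k) (c l (d (c k k) l))))))) (A (O (c l (c l (d (c k k) (c l (d l l)))))) (O (c l (c l (d (c k k) (c l (d l l))))))))) (A (B (O (c l (c l (d (c k k) (c l (d (c k k) (c l (d (c k k) (c l (d (c k k) l)))))))))) (O (c l (c l (d (c k k) (c l (d (c k k) (c l (d (c k k) (c l (d l l))))))))))) (B (O (c l (c l (d (c k k) (c l (d (c k k) (c l (d (c k k) (c l (d (c k k) (c l (d (c k k) l)))))))))))) (O (c l (c l (d (c k k) (c l (d (c k k) (c l (d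 (c k k) (c l (d (c k k) l)))))))))))))))))))

theorem s00_r111011 : Sound P00 53248 2048 49152 8192 :=
  chkOut_sound P00 tr00_r111011 53248 2048 49152 8192 (by decide +kernel)

end Vale.Agent.P154.I9
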