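import Vale.Agent.P154.I9.Charts

set_option maxRecDepth 100000

namespace Vale.Agent.P154.I9

open Cert InT OutT

/-- Certificate tree. -/
def tr10_r : OutT :=
(A (A (A (A (A (A (A (A (O (c (c (c (c (c (c z (c l l)) (c l l)) (c l l)) (c (d l (c l l)) (d l (c l l)))) (c (d (c l l) (c (d l (c l l)) (d l (c l l)))) (d (c (d l l) (d l l)) (c (d (c l l) (c l l)) (d (c l l) (c l l)))))) (c (d (c (d l (c l (d l l))) (d l (c (d l l) (d k l)))) (c (d (c (d l l) (d l l)) (c (d l l) (d l l))) (d (c (d l l) (d l l)) (c (d l l) (d l l))))) (d (c k k) (c (d (c (d k l) (d k l)) (c (d l l) l)) (d (c k k) (c l l))))))) (O (c (c (c (c (c (c (c l l) l) (c l l)) (c l l)) (c (d l (c l l)) (d l (c l l)))) (c (d (c l l) (c (d l (c l l)) (d l (c l l)))) (d (c (d l l) (d l l)) (c (d (c l l) (c l l)) (d (c l l) (c l l)))))) (c (d (c (d l (c l (d l l))) (d l (c (d l l) (d k l)))) (c (d (c (d l l) (d l l)) (c (d l l) (d l l))) (d (c (d l l) (d l l)) (c (d l l) (d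 l l))))) (d (c k k) (c (d (c (d k l) (d k l)) (c (d l l) l)) (d (c k k) (c l l)))))))) (O (c (c (c (c (c (c l l) (c l l)) (c l l)) (c (d l (c l l)) (d l (c l l)))) (c (d (c l l) (c (d l (c l l)) (d l (c l l)))) (d (c (d l l) (d l l)) (c (d (c l l) (c l l)) (d (c l l) (c l l)))))) (c (d (c (d l (c l (d l l))) (d l (c (d l l) (d k l)))) (c (d (c (d l l) (d l l)) (c (d l l) (d l l))) (d (c (d l l) (d l l)) (c (d l l) (d l l))))) (d (c k k) (c (d (c (d k l) (d k l)) (c (d l l) l)) (d (c k k) (c l l)))))))) (O (c (c (c (c (c (c l l) l) (c l l)) (c (d l (c l l)) (d l (c l l)))) (c (d (c l l) (c (d l (c l l)) (d l (c l l)))) (d (c (d l l) (d l l)) (c (d (c l l) (c l l)) (d (c l l) (c l l)))))) (c (d (c (d l (c l (d l l))) (d l (c (d l l) (d k l)))) (c (d (c (d l l) (d l l)) (c (d l l) (d l l))) (d (c (d l l) (d l l)) (c (d l l) (d l l))))) (d (c k k) (c (d (c (d k l) (d k l)) (c (d l l) l)) (d (c k k) (c l l)))))))) (A (O (c (c (c (c l l) (c (d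 l l) (d l l))) (c (d (c l l) (c (d l l) (d l l))) (d (c (d l l) (d l l)) (c (d l (c l l)) (d l (c l l)))))) (c (d (c (d l (c l l)) (d l (c (d l l) (d k l)))) (c (d (c (d l l) (d l l)) (c (d l l) (d l l))) (d (c (d l l) (d l l)) (c (d l l) (d l l))))) (d (c k k) (c (d (c (d k l) (d k l)) (c (d l l) l)) (d (c k k) (c l l))))))) (O (c (c (c (c l l) (c l (d l l))) (c (d (c l l) (c l (d l l))) (d (c l (d l l)) (c (d l l) (d l (c l l)))))) (c (d (c (d l (c l l)) (d l (c l (d k l)))) (c (d (c l (d l l)) (c (d l l) (d l l))) (d (c (d l l) (d l l)) (c (d l l) (d l l))))) (d (c k k) (c (d (c (d k l) (d k l)) (c (d l l) l)) (d (c k k) (c l l))))))))) (A (O (c (c (c (c l l) (c l (d l l))) (c (d (c l l) (c l (d l l))) (d (c l (d l l)) (c (d l l) (d l (c l l)))))) (c (d (c (d l (c l l)) (d l (c l (d k l)))) (c (d (c l (d l l)) (c (d l l) (d l l))) (d (c (d l l) (d l l)) (c (d l l) (d l l))))) (d (c k k) (c (d (c (d k l) (d k l)) (c (d l l) l)) (d (c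 k k) (c l l))))))) (O (c (c (c (c l l) (c l l)) (c (d l (c l l)) (d (c l l) (c l (d l l))))) (c (d (c (d l (c l l)) (d l (c l l))) (c (d (c l l) (c l (d l l))) (d (c (d l l) (d l l)) (c (d l l) (d l l))))) (d (c k k) (c (d (c (d k l) (d k l)) (c l l)) (d (c k k) (c l l))))))))) (A (B (O (c (c (c (c l l) (c (d l l) (d l l))) (c (d l (c l l)) (d (c l l) (c (d l l) (d l l))))) (c (d (c (d l (c l l)) (d l (c l l))) (c (d (c l l) (c l (d l l))) (d (c (d l l) (d l l)) (c (d l l) (d l l))))) (d (c k k) (c (d (c (d k l) (d k l)) (c (d l l) l)) (d (c k k) (c l l))))))) (A (O (c (c (c l (c l l)) (c (d l l) (d l (c l l)))) (c (d (c (d l l) (d l (c l l))) (c (d (c l l) (c l l)) (d (c l l) (c l l)))) (d (c k k) (c (d (c (d k l) (d k l)) (c l l)) (d (c k k) (c l l))))))) (O (c (c (c l (c l l)) (c (d l l) (d l (c l l)))) (c (d (c (d l l) (d l l)) (c (d l (c l l)) (d (c l l) (c l l)))) (d (c k k) (c (d (c l (d k l)) (c l l)) (d (c k k) (c l l)))))))))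 (B (O (c (c (c l (c l l)) (c (d l (c l l)) (d l (c l l)))) (c (d (c (d l l) (d l (c l l))) (c (d (c l l) (c l l)) (d (c l (d l l)) (c l l)))) (d (c k k) (c (d (c (d k l) (d k l)) (c l l)) (d (c k k) (c l l))))))) (A (O (c (c (c (c l l) (c l l)) (c (d l l) (d l (c l l)))) (c (d (c (d l l) (d l l)) (c (d l l) (d (c l l) (c l l)))) (d (c k k) (c (d (c l (d k l)) (c l l)) (d (c k k) (c l l))))))) (O (c (c (c (c l l) (c l l)) (c (d l l) (d l (c l l)))) (c (d (c (d l l) (d l l)) (c (d l l) (d (c l l) (c l l)))) (d (c k k) (c (d (c l (d k l)) (c l l)) (d (c k k) (c l l))))))))))) (A (B (A (O (c (c (c l (c l l)) (c (d l l) (d (c l l) (c l l)))) (c (d (c (d l l) (d (c k k) (c l (d k l)))) (c (d (c l l) (c l l)) (d (c l (d l l)) (c l l)))) (d (c k k) (c (d (c (d k l) (d k l)) (c l (d l l))) (d (c k k) (c (d l l) (d l l)))))))) (B (O (c (c l (c l (d l l))) (c (d (c l (d l l)) (c l (d l l))) (d (c k k) (c (d (c l (d k l)) (c l l)) (d (c k k) (c l (d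 l l)))))))) (O (c (c (c l l) (c (d l l) (d l l))) (c (d (c (d l l) (d (c k k) (c l (d k l)))) (c (d l l) (d (c l (d l l)) (c l l)))) (d (c k k) (c (d (c (d k l) (d k (c k k))) (c l (d l l))) (d (c k k) (c (d l l) (d l l)))))))))) (A (B (O (c (c (c (c l (c l l)) (c (d l l) (d l l))) (c (d (c l l) (c l l)) (d (c l l) (c l l)))) (c (d (c (d l (c l l)) (d (c k k) (c l (d k l)))) (c (d (c l l) (c l l)) (d (c l (d l l)) (c l l)))) (d (c k k) (c (d (c (d k l) (d k l)) (c l (d l l))) (d (c k k) (c (d l l) (d l l)))))))) (A (O (c (c (c (c l l) (c l l)) (c (d l l) (d l l))) (c (d (c l (d l l)) (c (d l l) (d l l))) (d (c k k) (c (d (c l l) (c l l)) (d (c k k) (c l l))))))) (O (c (c (c (c l l) (c l l)) (c (d l l) (d l l))) (c (d (c (d l l) (d l l)) (c (d l l) (d l l))) (d (c k k) (c (d (c l l) (c l l)) (d (c k k) (c l l))))))))) (B (A (O (c (c (c l l) (c l (d l l))) (c (d (c l (d l l)) (c l (d l l))) (d (c k k) (c (d (c l l) l) (d (c k k) (c l l)))))))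 (O (c (c l (c l (d l l))) (c (d (c l (d l l)) (c l (d l l))) (d (c k k) (c (d (c l l) l) (d (c k k) (c l l)))))))) (A (O (c (c (c (c l l) (c l l)) (c (d l l) (d l l))) (c (d (c (d l l) (d l (c l l))) (c (d l l) (d l l))) (d (c k k) (c (d (c l (d k l)) (c l l)) (d (c k k) (c l l))))))) (O (c (c (c l (c l l)) (c (d l l) (d (c l l) l))) (c (d (c (d l l) (d (c k k) (c l (d k l)))) (c (d l l) (d (c l l) l))) (d (c k k) (c (d (c (d k l) (d k l)) (c l l)) (d (c k k) (c l l))))))))))) (B (A (B (A (O (c (c l l) (c (d l (c l l)) (d (c k k) (c (d l l) (d (c k k) l)))))) (O (c (c l l) (c (d (c l l) (c l l)) (d (c k k) (c (d (c l l) l) (d (c k k) (c l l)))))))) (A (O (c (c l (c l l)) (c (d (c l (d l l)) (c l (d l l))) (d (c k k) (c (d (c l l) l) (d (c k k) (c l l))))))) (O (c (c l (c l l)) (c (d (c l (d l l)) (c l (d l l))) (d (c k k) (c (d (c l (d k l)) l) (d (c k k) (c l (d l l)))))))))) (B (A (O (c (c l l) (c (d (c l (d l l)) (c l (d l l))) (d (c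 k k) (c (d (c l (d k l)) l) (d (c k k) (c l (d l l)))))))) (B (O (c (c l l) (c (d (c l l) (c l l)) (d (c k k) (c (d (c l (d k l)) l) (d (c k k) (c l (d l l)))))))) (O (c (c l l) (c (d (c l (d l l)) (c l (d l l))) (d (c k k) (c (d (c l (d k l)) l) (d (c k k) (c (d l l) (d (c k k) l)))))))))) (A (O (c (c l (c l l)) (c (d (c l (d (c k k) (c l (d k l)))) (c l (d l l))) (d (c k k) (c (d (c (d k l) (d k (c k k))) (c l l)) (d (c k k) (c (d (c l k) l) (d (c k k) l)))))))) (B (O (c (c l (c l l)) (c (d (c l (d (c k k) (c l (d k l)))) (c l (d l l))) (d (c k k) (c (d (c (d k l) (d k (c k k))) (c l l)) (d (c k k) (c (d l l) (d (c k k) l)))))))) (O (c (c l (c l l)) (c (d (c l (d (c k k) (c l (d k l)))) (c l (d (c l l) l))) (d (c k k) (c (d (c (d k l) (d k (c k k))) (c l (d l l))) (d (c k k) (c (d (c l k) l) (d (c k k) (c l l))))))))))))) (A (B (A (O (c (c l (c l (d l l))) (c (d (c l (d l (c l l))) (c l (d l l))) (d (c k k) (c (d (c l (d k l)) (c l l))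 (d (c k k) (c l l))))))) (O (c (c l (c l (d l l))) (c (d (c (d l l) (d (c k k) (c l (d k l)))) (c l (d (c l l) l))) (d (c k k) (c (d (c (d k l) (d k l)) (c l l)) (d (c k k) (c (d l l) (d (c k k) l))))))))) (A (O (c (c (c l l) (c (d l l) (d l l))) (c (d (c (d (c l l) l) (d (c k k) (c (d l l) (d k l)))) (c (d l l) (d (c l l) l))) (d (c k k) (c (d (c (d k l) (d k l)) (c l l)) (d (c k k) (c (d l l) (d l l)))))))) (O (c (c (c l l) (c (d l l) (d (c l l) l))) (c (d (c (d (c l (d l l)) (c l l)) (d (c k k) (c (d (c l k) l) (d k (c k k))))) (c (d l l) (d (c l (d l l)) l))) (d (c k k) (c (d (c (d k l) (d k (c k k))) (c l (d l l))) (d (c k k) (c (d (c l k) l) (d (c k k) l)))))))))) (B (A (B (O (c (c l (c l l)) (c (d (c l (d (c k k) (c l l))) (c l (d l l))) (d (c k k) (c (d (c (d k l) (d k l)) (c l l)) (d (c k k) (c (d l l) (d (c k k) l)))))))) (O (c (c l (c l l)) (c (d (c (d l l) (d (c k k) (c l (d k l)))) (c l (d l l))) (d (c k k) (c (d (c (d k l)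 (d k (c k k))) (c l l)) (d (c k k) (c (d l l) (d (c k k) l))))))))) (B (A (O (c (c l l) (c (d (c l (d l l)) (c l l)) (d (c k k) (c (d (c l (d k l)) l) (d (c k k) (c l l))))))) (O (c (c l l) (c (d (c l (d (c k k) l)) (c l l)) (d (c k k) (c (d (c l (d k l)) l) (d (c k k) (c l (d l l))))))))) (A (O (c (c l l) (c (d (c l (d l l)) (c l l)) (d (c k k) (c (d (c l (d k l)) l) (d (c k k) (c l l))))))) (O (c (c l l) (c (d (c l (d (c k k) l)) (c l (d l l))) (d (c k k) (c (d (c l (d k l)) l) (d (c k k) (c l (d l l))))))))))) (A (B (O (c (c l (c l (d l l))) (c (d (c (d l l) (d (c k k) (c l (d k l)))) (c l (d (c l l) l))) (d (c k k) (c (d (c (d k l) (d k (c k k))) (c l l)) (d (c k k) (c (d (c l k) l) (d (c k k) l)))))))) (O (c (c l (c l (d l l))) (c (d (c (d l l) (d (c k k) (c (d l l) (d k (c k k))))) (c l (d (c l (d l l)) l))) (d (c k k) (c (d (c (d k l) (d k (c k k))) (c l (d l l))) (d (c k k) (c (d (c l k) l) (d (c k k) (c l l)))))))))) (B (A (O (c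 (c l l) (c (d (c l (d (c k k) l)) (c l l)) (d (c k k) (c (d (c l (d k l)) l) (d (c k k) (c l (d l l)))))))) (O (c (c l l) (c (d (c l (d (c k k) (c l l))) (c l (d l l))) (d (c k k) (c (d (c l (d k l)) l) (d (c k k) (c l (d (c k k) l))))))))) (A (O (c (c l l) (c (d (c l (d (c k k) l)) (c l (d l l))) (d (c k k) (c (d (c l (d k l)) l) (d (c k k) (c l (d l l)))))))) (O (c (c l l) (c (d (c l (d (c k k) (c l l))) (c l (d l l))) (d (c k k) (c (d (c (d k l) (d k l)) l) (d (c k k) (c (d l l) (d (c k k) l)))))))))))))))) (A (B (A (B (A (B (A (B (O (c (c l l) (c (d (c l (d l l)) (c l l)) (d (c k k) (c (d (c l (d k l)) l) (d (c k k) (c l (d (c k k) l)))))))) (O (c (c l l) (c (d (c l (d l l)) (c l (d l l))) (d (c k k) (c (d (c l (d k l)) l) (d (c k k) (c (d l l) (d (c k k) l))))))))) (B (A (O (c (c l l) (c (d (c l (d l l)) (c l l)) (d (c k k) (c (d (c l (d k l)) l) (d (c k k) (c l (d l l)))))))) (O (c (c l (c l l)) (c (d (c l (d (c k k) (c l (d k l))))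 (c l (d l l))) (d (c k k) (c (d (c (d k l) (d k l)) l) (d (c k k) (c (d l l) (d (c k k) l))))))))) (A (O (c (c l l) (c (d (c l (d l l)) (c l l)) (d (c k k) (c (d (c l (d k l)) l) (d (c k k) (c l (d l l)))))))) (O (c (c l (c l l)) (c (d (c (d l l) (d (c k k) (c l (d k l)))) (c l (d l l))) (d (c k k) (c (d (c (d k l) (d k (c k k))) l) (d (c k k) (c (d l l) (d (c k k) l))))))))))) (A (B (O (c (c l l) (c (d (c l (d (c k k) (c l l))) (c l (d l l))) (d (c k k) (c (d (c (d k l) (d k (c k k))) (c l l)) (d (c k k) (c (d (c l k) l) (d (c k k) l)))))))) (O (c (c l (c l l)) (c (d (c l (d (c k k) (c l (d k l)))) (c l (d l l))) (d (c k k) (c (d (c (d k l) (d k (c k k))) (c l l)) (d (c k k) (c (d (c l k) l) (d (c k k) l))))))))) (B (A (O (c (c l (c l l)) (c (d (c l (d (c k k) (c l l))) (c l (d l l))) (d (c k k) (c (d (c l (d k l)) l) (d (c k k) (c l (d (c k k) l)))))))) (O (c (c l (c l (d l l))) (c (d (c (d l l) (d (c k k) (c l (d k (c k k))))) (c l (d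 (c l l) l))) (d (c k k) (c (d (c (d k l) (d k (c k k))) (c l l)) (d (c k k) (c (d (c l k) l) (d (c k k) l))))))))) (A (O (c (c l (c l l)) (c (d (c l (d (c k k) (c l (d k l)))) (c l (d l l))) (d (c k k) (c (d (c (d k l) (d k l)) l) (d (c k k) (c l (d (c k k) l)))))))) (O (c (c l (c l (d l l))) (c (d (c (d (c l l) l) (d (c k k) (c (d l l) (d k (c k k))))) (c l (d (c l (d l l)) l))) (d (c k k) (c (d (c (d k l) (d k (c k k))) (c l l)) (d (c k k) (c (d (c l k) l) (d (c k k) l)))))))))))) (B (A (B (A (O (c (c (c l l) (c l (d l l))) (c (d (c (d (c l (d l l)) l) (d (c k k) (c (d l l) (d k (c k k))))) (c l (d (c l (d l l)) l))) (d (c k k) (c (d (c (d k l) (d k (c k k))) (c l (d l l))) (d (c k k) (c (d (c l k) l) (d (c k k) l)))))))) s) (A (O (c (c (c l l) (c (d l l) (d (c l l) l))) (c (d (c (d (c l (d (c (d l l) (d k (c k k))) (c l (d l l)))) (c l l)) (d (c k k) (c (d (c l k) l) (d k (c k k))))) (c l (d (c l (d (c l k) l)) l))) (d (c k k) (c (d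 (c (d k (c l k)) (d k (c k k))) (c l (d (c l l) l))) (d (c k k) (c (d (c (d k l) k) l) (d (c k k) (c l l))))))))) s)) s) (A (B (A (B (O (c (c (c l l) (c (d l l) (d l l))) (c (d (c (d (c l (d (c l (d k (c k k))) (c l l))) l) (d (c k k) (c (d (c l k) l) (d k (c k k))))) (c l (d (c l (d (c l k) l)) l))) (d (c k k) (c (d (c (d k (c l k)) (d k (c k k))) (c l (d l l))) (d (c k k) (c (d (c (d k l) k) l) (d (c k k) l)))))))) s) s) s) s))) (A (B (A (B (A (O (c (c l l) (c (d (c l (d l l)) (c l l)) (d (c k k) (c (d (c l (d k l)) l) (d (c k k) (c l l))))))) (O (c (c l l) (c (d (c l (d (c k k) l)) (c l l)) (d (c k k) (c (d (c l (d k l)) l) (d (c k k) (c l (d l l))))))))) (A (O (c (c l l) (c (d (c l (d l l)) (c l l)) (d (c k k) (c (d (c l (d k l)) l) (d (c k k) (c l l))))))) (O (c (c l l) (c (d (c l (d (c k k) (c l l))) (c l (d l l))) (d (c k k) (c (d (c l (d k l)) l) (d (c k k) (c l (d l l)))))))))) (B (A (O (c (c l (c l l)) (c (d (c l (d (c k k) (c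 l (d k l)))) (c l (d l l))) (d (c k k) (c (d (c (d k l) (d k (c k k))) l) (d (c k k) (c (d l l) (d (c k k) l)))))))) (O (c (c l (c l (d l l))) (c (d (c (d (c l (d l l)) l) (d (c k k) (c (d (c l k) l) (d k (c k k))))) (c l (d (c l (d (c l k) l)) l))) (d (c k k) (c (d (c (d k (c l k)) (d k (c k k))) (c l (d l l))) (d (c k k) (c (d (c (d k l) k) l) (d (c k k) l))))))))) (A (O (c (c l (c l l)) (c (d (c (d l l) (d (c k k) (c l (d k l)))) (c l (d l l))) (d (c k k) (c (d (c (d k l) (d k (c k k))) l) (d (c k k) (c (d l l) (d (c k k) l)))))))) (O (c (c l (c l (d l l))) (c (d (c (d (c l (d (c l (d k l)) l)) l) (d (c k k) (c (d (c l k) l) (d k (c k k))))) (c l (d (c l (d (c l k) l)) l))) (d (c k k) (c (d (c (d k (c l k)) (d k (c k k))) (c l (d (c l l) l))) (d (c k k) (c (d (c (d k l) k) l) (d (c k k) (c l l)))))))))))) (A (B (A (O (c (c l l) (c (d (c l (d l l)) (c l l)) (d (c k k) (c (d (c l (d k l)) l) (d (c k k) (c l l))))))) (O (c (c l l) (c (d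 (c l (d (c k k) (c l l))) (c l (d l l))) (d (c k k) (c (d (c l (d k l)) l) (d (c k k) (c l (d (c k k) l))))))))) (A (O (c (c l l) (c (d (c l (d l l)) (c l l)) (d (c k k) (c (d (c l (d k l)) l) (d (c k k) (c l (d l l)))))))) (O (c (c l l) (c (d (c l (d (c k k) (c l (d k l)))) (c l (d l l))) (d (c k k) (c (d (c (d k l) (d k l)) l) (d (c k k) (c l (d (c k k) l)))))))))) (B (A (O (c (c l (c l l)) (c (d (c (d l l) (d (c k k) (c l (d k (c k k))))) (c l (d l l))) (d (c k k) (c (d (c (d k l) (d k (c k k))) (c l l)) (d (c k k) (c (d (c l k) l) (d (c k k) l)))))))) s) (A (O (c (c l (c l l)) (c (d (c (d l l) (d (c k k) (c l (d k (c k k))))) (c l (d (c l l) l))) (d (c k k) (c (d (c (d k l) (d k (c k k))) (c l l)) (d (c k k) (c (d (c l k) l) (d (c k k) l)))))))) s)))) s)) s) (A (B (A (B (A (B (A (O (c (c l l) (c (d (c l (d (c k k) l)) (c l l)) (d (c k k) (c (d (c l (d k l)) l) (d (c k k) (c l (d l l)))))))) (O (c (c l l) (c (d (c l (d (c k k) (c l (d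 k l)))) (c l (d l l))) (d (c k k) (c (d (c (d k l) (d k (c k k))) l) (d (c k k) (c (d l l) (d (c k k) l))))))))) (A (O (c (c l l) (c (d (c l (d (c k k) l)) (c l l)) (d (c k k) (c (d (c l (d k l)) l) (d (c k k) (c l (d l l)))))))) (O (c (c l l) (c (d (c l (d (c k k) (c l (d k l)))) (c l (d l l))) (d (c k k) (c (d (c (d k l) (d k (c k k))) l) (d (c k k) (c (d l l) (d (c k k) l)))))))))) (B (A (O (c (c l (c l l)) (c (d (c (d l l) (d (c k k) (c l (d k (c k k))))) (c l (d (c l l) l))) (d (c k k) (c (d (c (d k l) (d k (c k k))) (c l (d l l))) (d (c k k) (c (d (c l k) l) (d (c k k) l)))))))) s) s)) (A (B (A (O (c (c l l) (c (d (c l (d (c k k) l)) (c l (d l l))) (d (c k k) (c (d (c l (d k l)) l) (d (c k k) (c l (d l l)))))))) (O (c (c l l) (c (d (c l (d (c k k) (c l (d k l)))) (c l (d l l))) (d (c k k) (c (d (c (d k l) (d k (c k k))) l) (d (c k k) (c (d l l) (d (c k k) l))))))))) (A (O (c (c l l) (c (d (c l (d (c k k) (c l l))) (c l (d l l))) (d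 (c k k) (c (d (c l (d k l)) l) (d (c k k) (c l (d (c k k) l)))))))) (O (c (c l l) (c (d (c l (d (c k k) (c l (d k l)))) (c l (d l l))) (d (c k k) (c (d (c (d k l) (d k (c k k))) l) (d (c k k) (c (d (c l k) l) (d (c k k) l)))))))))) s)) s) (A (B (A (B (A (O (c (c l l) (c (d (c l (d (c k k) (c l l))) (c l (d l l))) (d (c k k) (c (d (c l (d k l)) l) (d (c k k) (c l (d (c k k) l)))))))) s) (A (O (c (c l l) (c (d (c l (d (c k k) (c l l))) (c l (d l l))) (d (c k k) (c (d (c l (d k l)) l) (d (c k k) (c l (d (c k k) l)))))))) s)) s) (A (B (A (O (c (c l l) (c (d (c l (d (c k k) l)) (c l (d l l))) (d (c k k) (c (d (c l (d k l)) l) (d (c k k) (c l (d (c k k) l)))))))) s) (A (O (c (c l l) (c (d (c l (d (c k k) l)) (c l (d l l))) (d (c k k) (c (d (c l (d k l)) l) (d (c k k) (c (d l l) (d (c k k) l)))))))) s)) s)) s)) s)) s))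

theorem s10_r : Sound P10 0 32768 0 32768 :=
  chkOut_sound P10 tr10_r 0 32768 0 32768 (by decide +kernel)

end Vale.Agent.P154.I9
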