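import Vale.Agent.P154.I9.Charts

set_option maxRecDepth 100000

namespace Vale.Agent.P154.I9

open Cert InT OutT

/-- Certificate tree. -/
def tr11_r1 : OutT :=
(A (B (A (B (A (B (A (O (c (c l (c l (d l l))) (c (d (c l k) (c (d l (c l k)) k)) k))) (B (O (c (c (c l l) (c (d l (c (d l l) (d l (c l (d l (c l l)))))) (d l (c (d l (c (d l (c l l)) (d l l))) (d l (c l l)))))) (c (d (c (d l (c l k)) k) (c (d (c l k) (c (d l l) k)) k)) k))) (A (O (c (c l (c l (d l l))) (c (d (c l k) (c (d l l) k)) k))) (O (c (c (c l (c l l)) (c (d l (c (d l (c l l)) (d l (c (d l (c l l)) (d l (c (d l l) (d l l))))))) (d l (c (d l (c (d l (c l l)) l)) (d l (c l l)))))) (c (d (c (d l l) k) (c (d (c l k) (c l k)) k)) k)))))) (A (O (c (c l (c (d l (c l l)) (d l (c (d l (c l l)) (d l (c l l)))))) (c (d (c (d l l) k) (c (d (c l k) (c (d l l) k)) k)) k))) (B (A (O (c (c l (c (d l l) (d l (c l l)))) (c (d (c l k) (c (d l (c l k)) k)) k))) (B (O (c (c (c l (c l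 l)) (c (d l (c (d l (c l (d l l))) (d l (c (d l (c l (d l (c l l)))) (d l (c (d l (c (d l (c l l)) (d l (c l l)))) (d l (c (d l (c l l)) l)))))))) (d l (c (d l (c (d l (c (d l (c l l)) l)) (d l l))) (d l (c l l)))))) (c (d (c (d l l) k) (c (d (c l k) (c l k)) k)) k))) (A (O (c (c l (c (d l (c l l)) (d l (c l l)))) (c (d (c l k) (c (d l (c l k)) k)) k))) (B (O (c (c (c l l) (c (d l (c (d l l) (d l (c l l)))) (d l (c (d l (c l l)) (d l l))))) (c (d (c (d l l) k) (c (d l (c l k)) k)) k))) (O (c (c (c l (c l l)) (c (d l (c (d l (c l l)) (d l (c (d l (c l l)) (d l (c l l)))))) (d l (c (d l (c (d l l) l)) (d l l))))) (c (d (c (d l l) k) (c (d (c l k) (c l k)) k)) k))))))) (A (O (c (c l (c (d l (c l l)) (d l (c l l)))) (c (d (c l k) (c (d l (c l k)) k)) k))) (B (A (O (c (c l (c (d l (c l l)) (d l (c l l)))) (c (d (c l k) (c (d l (c l k)) k)) k))) (B (A (O (c (c l (c (d l (c l (d l l))) (d l (c (d l l) l)))) (c (d (c l k) (c (d l (c l k))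 k)) k))) s) (A (O (c (c (c l l) (c (d l (c l (d l l))) (d l (c (d l l) l)))) (c (d (c l k) (c (d l (c l k)) k)) k))) s))) (A (O (c (c l (c (d l (c l l)) (d l (c (d l l) l)))) (c (d (c l k) (c (d l (c l k)) k)) k))) (B (A (O (c (c (c l l) (c (d l (c l (d l l))) (d l (c (d l l) l)))) (c (d (c (d l l) k) (c (d l (c l k)) k)) k))) s) s))))))) (B (A (B (A (B (A (O (c (c (c l l) (c (d l (c l l)) (d l (c l l)))) (c (d (c l k) (c (d l (c l k)) k)) k))) (B (A (O (c (c (c l l) (c (d l (c l (d l l))) (d l (c (d l l) l)))) (c (d (c l k) (c (d l (c l k)) k)) k))) (B (A (O (c (c (c l l) (c (d l (c (d l l) (d l l))) (d l (c (d l l) l)))) (c (d (c l k) (c (d l (c l k)) k)) k))) (B (O (c (c (c l (c l l)) (c (d l (c (d l (c l (d l (c l l)))) (d l (c (d l (c (d l l) (d l l))) (d l (c (d l l) l)))))) (d l (c (d l (c (d l l) l)) (d l l))))) (c (d (c l k) (c (d l (c l k)) k)) k))) (A (O (c (c (c l (c l l)) (c (d l (c (d l (c l l)) (d l (c (d l l) (d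 l l))))) (d l (c (d l (c l l)) l)))) (c (d (c l k) (c (d l (c l k)) k)) k))) s))) (A (O (c (c (c l (c l l)) (c (d l (c (d l (c l l)) (d l (c l l)))) (d l (c (d l (c l l)) l)))) (c (d (c l k) (c (d l (c l k)) k)) k))) (B (A (O (c (c (c l (c l l)) (c (d l (c (d l (c l (d l l))) (d l (c (d l (c l l)) (d l (c l l)))))) (d l (c (d l (c l l)) (d l l))))) (c (d (c l k) (c (d l (c l k)) k)) k))) s) s)))) (A (O (c (c (c l (c l l)) (c (d l (c (d l (c l l)) (d l (c l l)))) (d l (c (d l (c l l)) l)))) (c (d (c l k) (c (d l (c l k)) k)) k))) (B (A (O (c (c (c l (c l l)) (c (d l (c (d l (c l (d l (c l l)))) (d l (c (d l (c (d l (c l l)) (d l (c l l)))) (d l (c (d l (c l l)) l)))))) (d l (c (d l (c (d l l) l)) (d l l))))) (c (d (c l k) (c (d l (c l k)) k)) k))) s) (A (B (A (O (c (c (c l (c l l)) (c (d l (c (d l (c l l)) (d l (c (d l l) (d l l))))) (d l (c (d l (c l l)) l)))) (c (d (c l k) (c (d l (c l k)) k)) k))) s) (A (O (c (c (c l (c l l))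 (c (d l (c (d l (c l (d l l))) (d l (c (d l (c l l)) (d l (c l l)))))) (d l (c (d l (c l l)) (d l l))))) (c (d (c l k) (c (d l (c l k)) k)) k))) s)) s))))) (A (O (c (c (c l (c l l)) (c (d l (c (d l l) (d l (c l l)))) (d l (c (d l (c l l)) (d l l))))) (c (d (c l k) (c (d l (c l k)) k)) k))) (B (A (B (O (c (c (c l (c l l)) (c (d l (c (d l (c l l)) (d l (c (d l l) (d l (c l l)))))) (d l (c (d l (c l l)) (d l l))))) (c (d (c l k) (c (d l (c l k)) k)) k))) (A (O (c (c (c l l) (c (d l (c (d l l) (d l l))) (d l (c (d l l) l)))) (c (d (c l k) (c (d l (c l k)) k)) k))) (B (O (c (c (c l (c l l)) (c (d l (c (d l (c l (d l l))) (d l (c (d l (c l l)) (d l (c l l)))))) (d l (c (d l (c (d l l) l)) (d l l))))) (c (d (c l k) (c (d l (c l k)) k)) k))) (A (O (c (c (c l (c l l)) (c (d l (c (d l (c l l)) (d l (c l l)))) (d l (c (d l (c l l)) l)))) (c (d (c l k) (c (d l (c l k)) k)) k))) s)))) s) (A (B (A (O (c (c (c l (c l l)) (c (d l (c (d l (c l l))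 (d l (c l l)))) (d l (c (d l (c l l)) l)))) (c (d (c l k) (c (d l (c l k)) k)) k))) s) (A (O (c (c (c l (c l l)) (c (d l (c (d l (c l (d l l))) (d l (c (d l (c l l)) (d l (c l l)))))) (d l (c (d l (c (d l l) l)) (d l l))))) (c (d (c l k) (c (d l (c l k)) k)) k))) s)) s)))) s) (A (B (A (B (O (c (c (c l (c l l)) (c (d l (c (d l (c l l)) (d l (c (d l (c l l)) (d l (c l l)))))) (d l (c (d l (c (d l l) l)) (d l l))))) (c (d (c (d l l) k) (c (d (c l k) (c l k)) k)) k))) (A (O (c (c (c l l) (c (d l (c l l)) (d l (c (d l l) l)))) (c (d (c l k) (c (d l (c l k)) k)) k))) (B (O (c (c (c l (c l l)) (c (d l (c (d l (c l (d l l))) (d l (c (d l (c l l)) (d l (c l l)))))) (d l (c (d l (c (d l l) l)) (d l l))))) (c (d (c (d l l) k) (c (d l (c l k)) k)) k))) (A (O (c (c (c l l) (c (d l (c (d l l) (d l (c l l)))) (d l (c (d l (c l l)) l)))) (c (d (c l k) (c (d l (c l k)) k)) k))) s)))) (B (A (B (A (B (O (c (c (c l (c l l)) (c (d l (c (d l (c l (d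 l (c l l)))) (d l (c (d l (c (d l (c l l)) (d l (c l l)))) (d l (c (d l (c l l)) l)))))) (d l (c (d l (c (d l l) l)) (d l l))))) (c (d (c (d l l) k) (c (d l (c l k)) k)) k))) s) s) s) s) s)) (A (B (A (O (c (c (c l l) (c (d l (c l (d l l))) (d l (c (d l l) l)))) (c (d (c l k) (c (d l (c l k)) k)) k))) (B (A (O (c (c (c l (c l l)) (c (d l (c (d l (c l l)) (d l (c l l)))) (d l (c (d l (c l l)) (d l l))))) (c (d (c l k) (c (d l (c l k)) k)) k))) s) (A (O (c (c (c l (c l l)) (c (d l (c (d l (c l l)) (d l (c (d l (c l l)) (d l (c l l)))))) (d l (c (d l (c (d l l) l)) (d l l))))) (c (d (c (d l l) k) (c (d l (c l k)) k)) k))) s))) (A (O (c (c (c l (c l l)) (c (d l (c (d l (c l l)) (d l (c l l)))) (d l (c (d l (c l l)) (d l l))))) (c (d (c (d l l) k) (c (d l (c l k)) k)) k))) s)) s)) s)) s) (A (B (A (B (A (B (A (B (O (c (c (c l (c l l)) (c (d l (c (d l (c l l)) (d l (c (d l l) (d l l))))) (d l (c (d l (c l l)) (d l l))))) (c (d (c (d l l)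 k) (c (d l (c l k)) k)) k))) (O (c (c (c l (c l l)) (c (d l (c (d l (c l (d l (c l l)))) (d l (c (d l (c (d l l) (d l (c l (d l l))))) (d l (c (d l (c (d l l) l)) (d l l))))))) (d l (c (d l (c (d l (c l l)) l)) (d l l))))) (c (d (c (d l l) k) (c (d (c l k) (c l k)) k)) k)))) s) (A (B (A (O (c (c (c l l) (c (d l (c (d l l) (d l (c l l)))) (d l (c (d l (c l l)) l)))) (c (d (c l k) (c (d l (c l k)) k)) k))) s) s) s)) s) s) s) s) s))) (A (B (A (B (O (c (c l (c (d l (c l l)) (d l (c l l)))) (c (d (c (d l l) k) (c (d (c l k) (c l k)) k)) k))) (O (c (c l (c (d l (c l l)) (d l (c (d l (c l l)) (d l (c l l)))))) (c (d (c (d l l) k) (c (d (c l k) (c (d l l) k)) k)) k)))) (B (A (O (c (c l (c (d l (c l (d l l))) (d l (c (d l l) (d l l))))) (c (d (c (d l l) k) (c (d (c l k) (c l k)) k)) k))) (B (A (O (c (c (c l l) (c (d l (c l (d l l))) (d l (c (d l l) l)))) (c (d (c (d l l) k) (c (d l (c l k)) k)) k))) s) (A (O (c (c (c l l) (c (d l (c l (d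 l (c l l)))) (d l (c (d l (c l l)) (d l l))))) (c (d (c (d l l) k) (c (d (c l k) (c l k)) k)) k))) s))) (A (O (c (c l (c (d l (c l (d l l))) (d l (c (d l (c l l)) (d l l))))) (c (d (c (d l l) k) (c (d (c l k) (c l k)) k)) k))) (B (A (O (c (c (c l l) (c (d l (c l (d l (c l l)))) (d l (c (d l (c l l)) (d l l))))) (c (d (c (d l l) k) (c (d (c l k) (c l k)) k)) k))) s) s)))) (A (B (O (c (c l (c (d l (c l (d l l))) (d l (c (d l (c l l)) (d l (c l l)))))) (c (d (c (d (c l l) (c l k)) k) (c (d (c l k) (c (d l (c l k)) k)) k)) k))) (O (c (c l (c (d l (c l (d l (c l l)))) (d (c l l) (c (d l (c (d l (c l l)) (d l (c l l)))) (d l (c (d l (c l l)) l)))))) (c (d (c (d (c l (d l l)) (c l k)) k) (c (d (c (d l l) k) (c (d (c l k) (c l k)) k)) k)) k)))) (B (A (O (c (c l (c (d l (c l (d l l))) (d l (c (d l (c l l)) (d l (c l l)))))) (c (d (c (d l l) k) (c (d (c l k) (c l k)) k)) k))) s) (A (O (c (c l (c (d l (c l (d l l))) (d l (c (d l (c l l)) (d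 l (c l l)))))) (c (d (c (d l l) k) (c (d (c l k) (c l k)) k)) k))) s)))) s)) s) (A (B (A (B (A (B (O (c (c l (c (d l (c l (d l (c l l)))) (d (c l l) (c (d l (c (d l (c l l)) (d l (c l l)))) (d l (c (d l (c l l)) (d l l))))))) (c (d (c (d (c l (d l l)) (c l k)) k) (c (d (c (d l (c l k)) k) (c (d (c l k) (c l k)) k)) k)) k))) (O (c (c l (c (d l (c l (d l (c l l)))) (d (c l l) (c (d l (c (d l (c l l)) (d l (c l l)))) (d l (c (d l (c l l)) (d l (c l l)))))))) (c (d (c (d (c l (d l (c l k))) (c l k)) k) (c (d (c (d l (c l k)) k) (c (d (c l k) (c (d l l) k)) k)) k)) k)))) (B (A (O (c (c l (c (d l (c l (d l l))) (d l (c (d l l) (d l l))))) (c (d (c (d l (c l k)) k) (c (d (c l k) (c l k)) k)) k))) s) s)) (A (B (A (O (c (c l (c l (d l l))) (c (d (c l k) (c (d l l) k)) k))) (O (c (c l (c l (d l l))) (c (d (c l k) (c (d l (c l k)) k)) k)))) (A (O (c (c l (c l (d l l))) (c (d (c l k) (c (d l l) k)) k))) (O (c (c l (c l (d l l))) (c (d (c l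 k) (c (d l l) k)) k))))) s)) s) (A (B (A (B (O (c (c l (c (d l (c l l)) (d l (c (d l (c l l)) (d l (c l l)))))) (c (d (c (d (c l (d l (c l k))) (c l k)) k) (c (d (c (d l l) k) (c (d (c l k) (c l k)) k)) k)) k))) (A (O (c (c l (c l (d l l))) (c (d (c l k) (c (d l l) k)) k))) s)) s) (A (B (A (O (c (c l (c l (d l l))) (c (d (c l k) (c l k)) k))) s) (A (O (c (c l (c l l)) (c (d (c l k) (c l k)) k))) s)) s)) s)) s)) s)

theorem s11_r1 : Sound P11 32768 16384 0 32768 :=
  chkOut_sound P11 tr11_r1 32768 16384 0 32768 (by decide +kernel)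

end Vale.Agent.P154.I9
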