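import Vale.Agent.P154.I9.Charts

set_option maxRecDepth 100000

namespace Vale.Agent.P154.I9

open Cert InT OutT

/-- Certificate tree. -/
def tr01_r101 : OutT :=
(A (B (A (B (A (O (c l (c (d l (c l k)) k))) (O (c l (c (d l (c l k)) k)))) (A (O (c l (c (d l l) k))) (O (c l (c (d l (c l k)) k))))) (B (A (O (c (c l l) (c (d (c l k) (c l k)) k))) (B (O (c (c l (c l l)) (c (d (c l k) (c (d l (c l k)) k)) k))) (O (c (c l l) (c (d (c l k) (c l k)) k))))) (A (O (c l (c (d (c l k) (c l k)) k))) (B (O (c l (c (d (c l k) (c l k)) k))) (O (c l (c (d l (c l k)) k))))))) (A (B (A (O (c l (c (d l l) k))) (O (c l (c (d l l) k)))) (A (O (c l (c (d l l) k))) (O (c l (c (d l l) k))))) (B (A (O (c l (c (d l (c l k)) k))) (O (c l (c (d (c l k) (c l k)) k)))) (A (O (c l (c (d l (c l k)) k))) (O (c l (c (d l (c l k)) k))))))) (B (A (B (A (B (A (O (c (c l (c l l)) (c (d (c l k) (c l k)) k))) (O (c (c l (c l (d l (c l l)))) (c (d (c l k) (c (d (c l k) (c l k)) k))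 k)))) (A (O (c l (c (d l (c l k)) k))) (O (c (c l l) (c (d (c l k) (c l k)) k))))) (B (A (B (A (O (c (c l (c l (d l l))) (c (d (c l k) (c (d l l) k)) k))) s) (O (c (c l (c (d l l) (d l (c l l)))) (c (d (c l k) (c (d (c l k) (c l k)) k)) k)))) (B s (A s s))) (A (O (c (c l (c l (d l l))) (c (d (c l k) (c (d l (c l k)) k)) k))) (B (O (c (c l (c (d l (c l (d l l))) (d l (c (d l (c l l)) (d l (c l l)))))) (c (d (c (d l (c l k)) k) (c (d (c l k) (c (d l (c l k)) k)) k)) k))) (O (c (c l (c l (d l l))) (c (d (c l k) (c (d l (c l k)) k)) k))))))) (A (B (A (O (c l (c (d l (c l k)) k))) (O (c l (c (d l (c l k)) k)))) (A (O (c l (c (d l l) k))) (O (c l (c (d l (c l k)) k))))) (B (A (O (c (c l l) (c (d (c l k) (c l k)) k))) (O (c (c l (c l l)) (c (d (c l k) (c (d l l) k)) k)))) (A (O (c l (c (d l (c l k)) k))) (O (c l (c (d (c l k) (c l k)) k))))))) (B (A (B s (A (B s (A (O (c (c l (c l l)) (c (d (c l k) (c (d l l) k)) k))) s)) s)) s) (A (B (A (B (O (c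 (c l (c l (d l l))) (c (d (c l k) (c (d l (c l k)) k)) k))) (O (c (c l l) (c (d (c l k) (c l k)) k)))) (B (A s s) (O (c (c l (c l (d l l))) (c (d (c l k) (c (d (c l k) (c l k)) k)) k))))) (A (O (c (c l l) (c (d (c l k) (c l k)) k))) (B (O (c (c l l) (c (d (c l k) (c l k)) k))) (O (c l (c (d (c l k) (c l k)) k)))))) (B (A s s) (A (B (O (c (c l (c l (d l l))) (c (d (c l k) (c (d (c l k) (c l k)) k)) k))) (O (c (c l l) (c (d (c l k) (c l k)) k)))) (B s (O (c (c l (c l l)) (c (d (c l k) (c (d l (c l k)) k)) k))))))))) (A (B (A (B (O (c l (c (d (c l k) (c l k)) k))) (O (c l (c (d (c l k) (c l k)) k)))) (B (A (O (c l (c (d l l) k))) (O (c l (c (d l (c l k)) k)))) (A (O (c l (c (d l l) k))) (O (c l (c (d l l) k)))))) (A (B (O (c l (c (d l (c l k)) k))) (O (c l (c (d l (c l k)) k)))) (B (A (O (c l (c l k))) (O (c l (c l k)))) (A (O (c l (c l k))) (O (c l (c l k))))))) (B (A (B (A (O (c l (c (d l (c l k)) k))) (O (c l (c (d (c l k) (c l k)) k))))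 (A (O (c l (c (d l (c l k)) k))) (O (c l (c (d l (c l k)) k))))) (B (A (O (c l (c (d (c l k) (c l k)) k))) (B (O (c (c l l) (c (d (c l k) (c l k)) k))) (O (c l (c (d (c l k) (c l k)) k))))) (A (O (c l (c (d (c l k) (c l k)) k))) (B (O (c l (c (d l (c l k)) k))) (O (c l (c (d l (c l k)) k))))))) (A (B (A (O (c l (c (d l l) k))) (O (c l (c (d l l) k)))) (A (O (c l (c l k))) (O (c l (c l k))))) (B (A (O (c l (c (d l (c l k)) k))) (O (c l (c (d l (c l k)) k)))) (A (O (c l (c (d l l) k))) (O (c l (c (d l l) k))))))))))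

theorem s01_r101 : Sound P01 32768 8192 32768 16384 :=
  chkOut_sound P01 tr01_r101 32768 8192 32768 16384 (by decide +kernel)

end Vale.Agent.P154.I9
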